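import Vale.Agent.P227.Dual

/-!
At almost every tuple of generators the facet normals of a zonoid are extreme normals.
-/

namespace Vale.Agent.P227

open MeasureTheory Set
open scoped RealInnerProductSpace

variable {n : ℕ}

/-- A strict sub-level property that fails almost everywhere. -/
theorem measure_min_null {α : Type*} [MeasurableSpace α] (ρ : Measure α) [IsFiniteMeasure ρ]
    (P : Set α) (f : α → ℝ) :
    ρ {s | s ∈ P ∧ ρ (P ∩ {t | f t ≤ f s}) = 0} = 0 := by
  set I : Set ℝ := {r | ρ (P ∩ {t | f t ≤ r}) = 0} with hI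
  have hdown : ∀ a b, a ≤ b → b ∈ I → a ∈ I := fun a b hab hb =>
    measure_mono_null (inter_subset_inter_right _ fun t (ht : f t ≤ a) => ht.trans hab) hb
  have hsub : {s | s ∈ P ∧ ρ (P ∩ {t | f t ≤ f s}) = 0} ⊆ P ∩ f ⁻¹' I := fun s hs => ⟨hs.1, hs.2⟩
  refine measure_mono_null hsub ?_
  by_cases hmax : ∃ M ∈ I, ∀ r ∈ I, r ≤ M
  · obtain ⟨M, hM, hM'⟩ := hmax
    exact measure_mono_null (fun t ht => (⟨ht.1, hM' _ ht.2⟩ : t ∈ P ∩ {t | f t ≤ M})) hM
  · push Not at hmax
    refine measure_mono_null (t := ⋃ q ∈ {q : ℚ | (q : ℝ) ∈ I}, P ∩ {t | f t ≤ q}) ?_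
      ((measure_biUnion_null_iff (Set.to_countable _)).2 fun q hq => hq)
    intro t ht
    obtain ⟨r, hr, hlt⟩ := hmax (f t) ht.2
    obtain ⟨q, hq1, hq2⟩ := exists_rat_btwn hlt
    simp only [mem_iUnion]
    exact ⟨q, hdown _ _ hq2.le hr, ht.1, hq1.le⟩

/-- The sets covering the exceptional tuples. -/
def badSet (ρ : Measure (EuclideanSpace ℝ (Fin n))) (j l : Fin n)
    (B : Set (EuclideanSpace ℝ (Fin n))) (σ : ℝ) : Set (Fin n → EuclideanSpace ℝ (Fin n)) :=
  {v | dt v ≠ 0 ∧ v l ∈ B ∧ ρ {t | t ∈ B ∧ 0 < dt (Function.update v l t) * dt v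
    ∧ σ * (dt (Function.update v j t) * dt v) ≤ 0} = 0}

theorem measurable_badSet (ρ : Measure (EuclideanSpace ℝ (Fin n))) [IsFiniteMeasure ρ]
    (j l : Fin n) {B : Set (EuclideanSpace ℝ (Fin n))} (hB : MeasurableSet B) (σ : ℝ) :
    MeasurableSet (badSet ρ j l B σ) := by
  have hdt : Measurable (dt (n := n)) := continuous_dt.measurable
  have hu : ∀ k, Measurable fun x : (Fin n → EuclideanSpace ℝ (Fin n)) × EuclideanSpace ℝ (Fin n) => Function.update x.1 k x.2 :=
    fun k => (continuous_fst.update k continuous_snd).measurable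
  have hS : MeasurableSet {x : (Fin n → EuclideanSpace ℝ (Fin n)) × EuclideanSpace ℝ (Fin n) | x.2 ∈ B
      ∧ 0 < dt (Function.update x.1 l x.2) * dt x.1
      ∧ σ * (dt (Function.update x.1 j x.2) * dt x.1) ≤ 0} :=
    (measurable_snd hB).inter
      ((measurableSet_lt measurable_const ((hdt.comp (hu l)).mul (hdt.comp measurable_fst))).inter
        (measurableSet_le (((hdt.comp (hu j)).mul (hdt.comp measurable_fst)).const_mul σ)
          measurable_const))
  exact ((hdt (measurableSet_singleton 0)).compl).inter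
    (((measurable_pi_apply l) hB).inter
      (measurable_measure_prodMk_left (ν := ρ) hS (measurableSet_singleton 0)))

theorem slice_null (ρ : Measure (EuclideanSpace ℝ (Fin n))) [IsFiniteMeasure ρ] {j l : Fin n}
    (hjl : l ≠ j) (B : Set (EuclideanSpace ℝ (Fin n))) (σ : ℝ)
    (r : Fin n → EuclideanSpace ℝ (Fin n)) :
    ρ {s | Function.update r l s ∈ badSet ρ j l B σ} = 0 := by
  by_cases hgood : ∀ s, dt (Function.update r l s) = 0
  · exact measure_mono_null (fun s hs => (hs.1 (hgood s)).elim) measure_empty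
  push Not at hgood
  obtain ⟨s0, hs0⟩ := hgood
  set v0 := Function.update r l s0 with hv0
  set al : EuclideanSpace ℝ (Fin n) → ℝ := fun t => ⟪t, dual v0 l⟫ with hal
  set aj : EuclideanSpace ℝ (Fin n) → ℝ := fun t => ⟪t, dual v0 j⟫ with haj
  have h1 : ∀ t, dt (Function.update r l t) = al t * dt v0 := fun t => by
    rw [← dt_update v0 hs0, hv0, Function.update_idem]
  have h2 : ∀ s t, al s ≠ 0 → dt (Function.update (Function.update r l s) j t)
      = (aj t - aj s / al s * al t) * (al s * dt v0) := by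
    intro s t hs
    have hne : dt (Function.update r l s) ≠ 0 := by rw [h1]; exact mul_ne_zero hs hs0
    have hd : dual (Function.update r l s) j = dual v0 j - (aj s / al s) • dual v0 l := by
      refine sub_eq_zero.1 (eq_zero_of_inner_eq_zero hne fun k => ?_)
      rw [inner_sub_right, inner_dual _ hne, inner_sub_right, real_inner_smul_right]
      by_cases hk : k = l
      · subst hk
        simp only [Function.update_self, if_neg hjl]
        simp only [hal, haj] at hs ⊢
        field_simp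
        ring
      · have e : Function.update r l s k = v0 k := by simp [hv0, Function.update_of_ne hk]
        rw [e, inner_dual _ hs0, inner_dual _ hs0, if_neg hk]
        ring
    rw [dt_update _ hne, hd, inner_sub_right, real_inner_smul_right, h1 s]
  have hd0 : 0 < dt v0 * dt v0 := mul_self_pos.2 hs0
  set P : ℝ → Set (EuclideanSpace ℝ (Fin n)) := fun e => {t | t ∈ B ∧ 0 < e * al t}
  refine measure_mono_null (t :=
    {s | s ∈ P 1 ∧ ρ (P 1 ∩ {t | σ * 1 * (aj t / al t) ≤ σ * 1 * (aj s / al s)}) = 0}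
      ∪ {s | s ∈ P (-1) ∧ ρ (P (-1) ∩ {t | σ * -1 * (aj t / al t) ≤ σ * -1 * (aj s / al s)}) = 0})
    ?_ (measure_union_null (measure_min_null ρ _ _) (measure_min_null ρ _ _))
  rintro s ⟨hne, hsB, hnull⟩
  rw [h1] at hne
  rw [Function.update_self] at hsB
  have hs : al s ≠ 0 := left_ne_zero_of_mul hne
  have key : ∀ e : ℝ, (e = 1 ∨ e = -1) → 0 < e * al s → s ∈ P e ∧
      ρ (P e ∩ {t | σ * e * (aj t / al t) ≤ σ * e * (aj s / al s)}) = 0 := by
    intro e he hes
    refine ⟨⟨hsB, hes⟩, measure_mono_null ?_ hnull⟩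
    rintro t ⟨⟨htB, het⟩, hle⟩
    have hee : e * e = 1 := by rcases he with rfl | rfl <;> norm_num
    have htne : al t ≠ 0 := right_ne_zero_of_mul het.ne'
    refine ⟨htB, ?_, ?_⟩
    · rw [Function.update_idem, h1 t, h1 s]
      have : al t * dt v0 * (al s * dt v0) = (e * al t) * (e * al s) * (dt v0 * dt v0) := by
        linear_combination (-(al t * al s * dt v0 * dt v0)) * hee
      rw [this]
      exact mul_pos (mul_pos het hes) hd0
    · rw [h2 s t hs, h1 s]
      have : σ * ((aj t - aj s / al s * al t) * (al s * dt v0) * (al s * dt v0))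
          = (σ * e * (aj t / al t) - σ * e * (aj s / al s)) * (e * al t)
            * ((al s * dt v0) * (al s * dt v0)) := by
        have e1 : aj t = aj t / al t * al t := (div_mul_cancel₀ _ htne).symm
        linear_combination (σ * (al s * dt v0) * (al s * dt v0)) * e1
          - (σ * al t * (aj t / al t - aj s / al s) * (al s * dt v0) * (al s * dt v0)) * hee
      rw [this]
      exact mul_nonpos_of_nonpos_of_nonneg
        (mul_nonpos_of_nonpos_of_nonneg (sub_nonpos.2 hle) het.le) (mul_self_nonneg _)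
  rcases lt_or_gt_of_ne hs with h | h
  · exact Or.inr (key (-1) (Or.inr rfl) (by linarith))
  · exact Or.inl (key 1 (Or.inl rfl) (by linarith))

theorem pi_null_of_slices (ρ : Measure (EuclideanSpace ℝ (Fin n))) [IsFiniteMeasure ρ] (l : Fin n)
    {M : Set (Fin n → EuclideanSpace ℝ (Fin n))} (hM : MeasurableSet M)
    (h : ∀ r, ρ {s | Function.update r l s ∈ M} = 0) : Measure.pi (fun _ => ρ) M = 0 := by
  cases n with
  | zero => exact l.elim0
  | succ m =>
    set e := MeasurableEquiv.piFinSuccAbove (fun _ : Fin (m + 1) => EuclideanSpace ℝ (Fin (m + 1))) l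
    have hp := measurePreserving_piFinSuccAbove
      (fun _ : Fin (m + 1) => (ρ : Measure (EuclideanSpace ℝ (Fin (m + 1))))) l
    rw [← hp.symm.measure_preimage hM.nullMeasurableSet,
      Measure.prod_apply_symm (e.symm.measurable hM)]
    refine (lintegral_congr fun y => ?_).trans lintegral_zero
    rw [← h (Fin.insertNth l 0 y)]
    congr 1
    ext s
    simp [e, Fin.update_insertNth]
    rfl

/-- For almost every tuple every tight direction is the facet normal. -/
theorem ae_tight (ρ : Measure (EuclideanSpace ℝ (Fin n))) [IsFiniteMeasure ρ] :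
    ∀ᵐ v ∂(Measure.pi fun _ : Fin n => ρ), ∀ j, dt v ≠ 0 → ∀ u,
      (∀ᵐ t ∂ρ, |⟪t, u⟫| = Real.sign ⟪t, dual v j⟫ * ⟪t, u⟫) →
      ∀ l, l ≠ j → ⟪v l, u⟫ = 0 := by
  set bs := TopologicalSpace.countableBasis (EuclideanSpace ℝ (Fin n))
  have hnull : Measure.pi (fun _ : Fin n => ρ)
      (⋃ j, ⋃ l ∈ ({l | l ≠ j} : Set (Fin n)), ⋃ B ∈ bs, ⋃ σ ∈ ({1, -1} : Set ℝ),
        badSet ρ j l B σ) = 0 := by
    refine measure_iUnion_null fun j => (measure_biUnion_null_iff (Set.to_countable _)).2 ?_
    intro l hl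
    refine (measure_biUnion_null_iff (TopologicalSpace.countable_countableBasis _)).2 ?_
    intro B hB
    refine (measure_biUnion_null_iff (Set.to_countable _)).2 fun σ _ => ?_
    exact pi_null_of_slices ρ l (measurable_badSet ρ j l
      (TopologicalSpace.isOpen_of_mem_countableBasis hB).measurableSet σ)
      (slice_null ρ hl B σ)
  refine ae_iff.2 (measure_mono_null ?_ hnull)
  intro v hv
  simp only [mem_ofPred_eq, not_forall] at hv
  obtain ⟨j, hdt, u, hu, l, hl, hne⟩ := hv
  obtain ⟨σ, hσ, hpos⟩ : ∃ σ ∈ ({1, -1} : Set ℝ), 0 < σ * ⟪v l, u⟫ := by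
    rcases lt_or_gt_of_ne hne with h | h
    · exact ⟨-1, by simp, by linarith⟩
    · exact ⟨1, by simp, by linarith⟩
  obtain ⟨B, hB, hvB, hsub⟩ := (TopologicalSpace.isBasis_countableBasis _).exists_subset_of_mem_open
    (show v l ∈ {t | 0 < σ * ⟪t, u⟫} from hpos) (isOpen_lt continuous_const (by fun_prop))
  simp only [mem_iUnion]
  refine ⟨j, l, hl, B, hB, σ, hσ, hdt, hvB, measure_mono_null ?_ (ae_iff.1 hu)⟩
  rintro t ⟨htB, -, hle⟩ heq
  have h1 : 0 < σ * ⟪t, u⟫ := hsub htB
  rw [dt_update v hdt] at hle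
  set a := ⟪t, u⟫
  set b := ⟪t, dual v j⟫
  have ha : a ≠ 0 := right_ne_zero_of_mul h1.ne'
  have hd : 0 < dt v * dt v := mul_self_pos.2 hdt
  have hb : 0 < σ * b := by
    rcases lt_trichotomy b 0 with hb | hb | hb
    · rw [Real.sign_of_neg hb] at heq
      have : a < 0 := lt_of_le_of_ne (by linarith [abs_nonneg a]) ha
      rcases hσ with rfl | rfl <;> linarith
    · rw [hb, Real.sign_zero, zero_mul, abs_eq_zero] at heq
      exact absurd heq ha
    · rw [Real.sign_of_pos hb, one_mul] at heq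
      have : 0 < a := lt_of_le_of_ne (by linarith [abs_nonneg a]) (Ne.symm ha)
      rcases hσ with rfl | rfl <;> linarith
  nlinarith [mul_pos hb hd]

end Vale.Agent.P227
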