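import Mathlib

/-!
Tuples of vectors: determinant, dual basis and parallelepipeds.
-/

namespace Vale.Agent.P227

open MeasureTheory Set
open scoped RealInnerProductSpace

variable {n : ℕ}

/-- Determinant of a tuple of vectors. -/
noncomputable def dt (v : Fin n → EuclideanSpace ℝ (Fin n)) : ℝ :=
  (Matrix.of fun i c => v i c).det

/-- Dual basis of a tuple with nonzero determinant. -/
noncomputable def dual (v : Fin n → EuclideanSpace ℝ (Fin n)) (j : Fin n) :
    EuclideanSpace ℝ (Fin n) :=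
  WithLp.toLp 2 fun c => (dt v)⁻¹ * (Matrix.of fun i c => v i c).adjugate c j

theorem inner_eq_sum (x y : EuclideanSpace ℝ (Fin n)) : ⟪x, y⟫ = ∑ c, x c * y c := by
  simp [PiLp.inner_apply, mul_comm]

theorem inner_dual (v : Fin n → EuclideanSpace ℝ (Fin n)) (hv : dt v ≠ 0) (k j : Fin n) :
    ⟪v k, dual v j⟫ = if k = j then 1 else 0 := by
  have h := congrFun (congrFun (Matrix.mul_adjugate (Matrix.of fun i c => v i c)) k) j
  rw [Matrix.mul_apply] at h
  rw [inner_eq_sum]
  have e : ∀ c, v k c * (dual v j) c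
      = (dt v)⁻¹ * ((Matrix.of fun i c => v i c) k c
        * (Matrix.of fun i c => v i c).adjugate c j) := fun c => by
    simp [dual]; ring
  rw [Finset.sum_congr rfl fun c _ => e c, ← Finset.mul_sum, h]
  simp only [Matrix.smul_apply, Matrix.one_apply, smul_eq_mul]
  rw [← dt, ← mul_assoc, inv_mul_cancel₀ hv, one_mul]

theorem continuousAt_dual {v : Fin n → EuclideanSpace ℝ (Fin n)} (hv : dt v ≠ 0) (j : Fin n) :
    ContinuousAt (fun w => dual w j) v := by
  have hM : Continuous fun w : Fin n → EuclideanSpace ℝ (Fin n) =>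
      (Matrix.of fun i c => w i c : Matrix (Fin n) (Fin n) ℝ) := by
    refine continuous_matrix fun i c => ?_
    simp only [Matrix.of_apply]
    fun_prop
  have hd : Continuous fun w : Fin n → EuclideanSpace ℝ (Fin n) => dt w := hM.matrix_det
  refine (PiLp.continuous_toLp 2 _).continuousAt.comp ?_
  exact continuousAt_pi.2 fun c => (hd.continuousAt.inv₀ hv).mul
    ((hM.matrix_adjugate.matrix_elem c j).continuousAt)

theorem continuous_dt : Continuous (dt (n := n)) := by
  refine Continuous.matrix_det (continuous_matrix fun i c => ?_)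
  simp only [Matrix.of_apply]
  fun_prop

theorem eq_zero_of_inner_eq_zero {v : Fin n → EuclideanSpace ℝ (Fin n)} (hv : dt v ≠ 0)
    {u : EuclideanSpace ℝ (Fin n)} (h : ∀ k, ⟪v k, u⟫ = 0) : u = 0 := by
  have h1 : (Matrix.of fun i c => v i c).mulVec (fun c => u c) = 0 := funext fun k => by
    rw [Pi.zero_apply, ← h k, inner_eq_sum]; rfl
  have h2 : (fun c => u c) = 0 := by
    by_contra hne
    exact hv (Matrix.exists_mulVec_eq_zero_iff.1 ⟨_, hne, h1⟩)
  ext c; exact congrFun h2 c

theorem eq_sum_dual {v : Fin n → EuclideanSpace ℝ (Fin n)} (hv : dt v ≠ 0)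
    (y : EuclideanSpace ℝ (Fin n)) : y = ∑ k, ⟪v k, y⟫ • dual v k := by
  refine sub_eq_zero.1 (eq_zero_of_inner_eq_zero hv fun k => ?_)
  simp [inner_sub_right, inner_sum, real_inner_smul_right, inner_dual v hv]

theorem eq_sum_vec {v : Fin n → EuclideanSpace ℝ (Fin n)} (hv : dt v ≠ 0)
    (y : EuclideanSpace ℝ (Fin n)) : y = ∑ k, ⟪dual v k, y⟫ • v k := by
  have key : ∀ z, ⟪y - ∑ k, ⟪dual v k, y⟫ • v k, z⟫ = 0 := by
    intro z
    conv_lhs => rw [eq_sum_dual hv z]
    simp [inner_sub_left, inner_sum, sum_inner, real_inner_smul_left, real_inner_smul_right,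
      inner_dual v hv, real_inner_comm (dual v _) y]
  exact sub_eq_zero.1 (inner_self_eq_zero.1 (key _))

theorem dt_update (v : Fin n → EuclideanSpace ℝ (Fin n)) (hv : dt v ≠ 0) (j : Fin n)
    (t : EuclideanSpace ℝ (Fin n)) :
    dt (Function.update v j t) = ⟪t, dual v j⟫ * dt v := by
  set M : Matrix (Fin n) (Fin n) ℝ := Matrix.of fun i c => v i c with hM
  have h1 : (Matrix.of fun i c => Function.update v j t i c) = M.updateRow j (fun c => t c) := by
    ext i c
    by_cases h : i = j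
    · subst h; simp
    · simp [Matrix.updateRow_ne h, Function.update_of_ne h, hM]
  have h2 : (fun c => t c) = ∑ k, ⟪t, dual v k⟫ • M k := by
    funext c
    have h3 := congrArg (fun z : EuclideanSpace ℝ (Fin n) => z c) (eq_sum_vec hv t)
    simp only [WithLp.ofLp_sum, Finset.sum_apply, WithLp.ofLp_smul, Pi.smul_apply] at h3 ⊢
    rw [h3]
    simp [hM, real_inner_comm]
  rw [dt, h1, h2, Matrix.det_updateRow_sum, dt, smul_eq_mul]

theorem dt_perm (v : Fin n → EuclideanSpace ℝ (Fin n)) (σ : Equiv.Perm (Fin n)) :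
    |dt (v ∘ σ)| = |dt v| := by
  have : (Matrix.of fun i c => (v ∘ σ) i c) = (Matrix.of fun i c => v i c).submatrix σ id := rfl
  rw [dt, this, Matrix.det_permute, abs_mul, dt]
  rcases Int.units_eq_one_or (Equiv.Perm.sign σ) with h | h <;> simp [h]

theorem injective_of_dt_ne_zero {v : Fin n → EuclideanSpace ℝ (Fin n)} (hv : dt v ≠ 0) :
    Function.Injective v := by
  intro a b hab
  by_contra hne
  exact hv (Matrix.det_zero_of_row_eq hne (funext fun c => by simp [hab]))

/-- The linear map sending the coordinate vectors to the tuple. -/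
noncomputable def lin (v : Fin n → EuclideanSpace ℝ (Fin n)) :
    EuclideanSpace ℝ (Fin n) →ₗ[ℝ] EuclideanSpace ℝ (Fin n) :=
  Matrix.toEuclideanLin (Matrix.of fun i c => v c i)

theorem lin_apply (v : Fin n → EuclideanSpace ℝ (Fin n)) (z : EuclideanSpace ℝ (Fin n)) :
    lin v z = ∑ k, z k • v k := by
  ext c
  simp [lin, Matrix.toLpLin_apply, Matrix.mulVec, dotProduct, mul_comm]

theorem det_lin (v : Fin n → EuclideanSpace ℝ (Fin n)) : LinearMap.det (lin v) = dt v := by
  rw [lin, Matrix.toEuclideanLin, Matrix.toLpLin_eq_toLin, LinearMap.det_toLin, dt, ← Matrix.det_transpose]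
  rfl

/-- Coordinate box in Euclidean space. -/
def box (lo hi : Fin n → ℝ) : Set (EuclideanSpace ℝ (Fin n)) :=
  {z | ∀ k, lo k ≤ z k ∧ z k ≤ hi k}

theorem volume_box (lo hi : Fin n → ℝ) (h : lo ≤ hi) :
    volume.real (box lo hi) = ∏ k, (hi k - lo k) := by
  have he : box lo hi = (WithLp.ofLp : EuclideanSpace ℝ (Fin n) → (Fin n → ℝ)) ⁻¹' Icc lo hi := by
    ext z
    exact ⟨fun hz => ⟨fun k => (hz k).1, fun k => (hz k).2⟩, fun hz k => ⟨hz.1 k, hz.2 k⟩⟩
  rw [he, measureReal_def, (PiLp.volume_preserving_ofLp (Fin n)).measure_preimage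
    measurableSet_Icc.nullMeasurableSet, Real.volume_Icc_pi_toReal h]

theorem volume_lin_box (v : Fin n → EuclideanSpace ℝ (Fin n)) (lo hi : Fin n → ℝ) (h : lo ≤ hi) :
    volume.real (lin v '' box lo hi) = |dt v| * ∏ k, (hi k - lo k) := by
  rw [measureReal_def, Measure.addHaar_image_linearMap, det_lin, ENNReal.toReal_mul,
    ENNReal.toReal_ofReal (abs_nonneg _), ← measureReal_def, volume_box lo hi h]

theorem isCompact_lin_box (v : Fin n → EuclideanSpace ℝ (Fin n)) (lo hi : Fin n → ℝ) :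
    IsCompact (lin v '' box lo hi) := by
  refine IsCompact.image ?_ (lin v).continuous_of_finiteDimensional
  have he : box lo hi = (EuclideanSpace.equiv (Fin n) ℝ).toHomeomorph ⁻¹' Icc lo hi := by
    ext z
    exact ⟨fun hz => ⟨fun k => (hz k).1, fun k => (hz k).2⟩, fun hz k => ⟨hz.1 k, hz.2 k⟩⟩
  rw [he]
  exact (EuclideanSpace.equiv (Fin n) ℝ).toHomeomorph.isCompact_preimage.2 isCompact_Icc

/-- A set with bounded dual coordinates lies in a parallelepiped. -/
theorem volume_le_of_dual_bound {v : Fin n → EuclideanSpace ℝ (Fin n)} (hv : dt v ≠ 0)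
    {S : Set (EuclideanSpace ℝ (Fin n))} {lo hi : Fin n → ℝ} (h : lo ≤ hi)
    (hS : ∀ y ∈ S, ∀ k, lo k ≤ ⟪dual v k, y⟫ ∧ ⟪dual v k, y⟫ ≤ hi k) :
    volume.real S ≤ |dt v| * ∏ k, (hi k - lo k) := by
  rw [← volume_lin_box v lo hi h]
  refine measureReal_mono ?_ (isCompact_lin_box v lo hi).measure_lt_top.ne
  intro y hy
  refine ⟨WithLp.toLp 2 fun k => ⟪dual v k, y⟫, fun k => hS y hy k, ?_⟩
  rw [lin_apply]
  exact (eq_sum_vec hv y).symm

end Vale.Agent.P227
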