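import Mathlib

/-!
Power diagrams with prescribed cell volumes inside a bounded set.
-/

namespace Vale.Agent.P227

open MeasureTheory Set
open scoped RealInnerProductSpace

variable {n : ℕ} {ι : Type*} [Fintype ι]

/-- An open power cell inside `L`. -/
def cell (L : Set (EuclideanSpace ℝ (Fin n))) (p : ι → EuclideanSpace ℝ (Fin n)) (c : ι → ℝ)
    (i : ι) : Set (EuclideanSpace ℝ (Fin n)) :=
  L ∩ {y | ∀ j, j ≠ i → ⟪p j, y⟫ - c j < ⟪p i, y⟫ - c i}

/-- The upper envelope. -/
noncomputable def env [Nonempty ι] (p : ι → EuclideanSpace ℝ (Fin n)) (c : ι → ℝ)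
    (y : EuclideanSpace ℝ (Fin n)) : ℝ :=
  Finset.univ.sup' Finset.univ_nonempty fun i => ⟪p i, y⟫ - c i

theorem env_le [Nonempty ι] {p : ι → EuclideanSpace ℝ (Fin n)} {c : ι → ℝ}
    {y : EuclideanSpace ℝ (Fin n)} {t : ℝ} (h : ∀ i, ⟪p i, y⟫ - c i ≤ t) : env p c y ≤ t :=
  Finset.sup'_le _ _ fun i _ => h i

theorem le_env [Nonempty ι] (p : ι → EuclideanSpace ℝ (Fin n)) (c : ι → ℝ)
    (y : EuclideanSpace ℝ (Fin n)) (i : ι) : ⟪p i, y⟫ - c i ≤ env p c y :=
  Finset.le_sup' (fun i => ⟪p i, y⟫ - c i) (Finset.mem_univ i)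

theorem continuous_env [Nonempty ι] (p : ι → EuclideanSpace ℝ (Fin n)) (c : ι → ℝ) :
    Continuous (env p c) :=
  Continuous.finset_sup'_apply _ fun i _ => by fun_prop

theorem abs_env_sub_le [Nonempty ι] (p : ι → EuclideanSpace ℝ (Fin n)) (c c' : ι → ℝ)
    (y : EuclideanSpace ℝ (Fin n)) : |env p c y - env p c' y| ≤ ‖c - c'‖ := by
  have h : ∀ a b : ι → ℝ, env p a y ≤ env p b y + ‖a - b‖ := by
    intro a b
    refine env_le fun i => ?_
    have h1 := le_env p b y i
    have h2 : |a i - b i| ≤ ‖a - b‖ := by simpa using norm_le_pi_norm (a - b) i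
    have := abs_le.1 h2
    linarith
  rw [abs_le]
  have h1 := h c c'
  have h2 := h c' c
  rw [norm_sub_rev c' c] at h2
  constructor <;> linarith

theorem hyperplane_null {v : EuclideanSpace ℝ (Fin n)} (hv : v ≠ 0) (a : ℝ) :
    volume {y : EuclideanSpace ℝ (Fin n) | ⟪v, y⟫ = a} = 0 := by
  set y0 : EuclideanSpace ℝ (Fin n) := (a / ‖v‖ ^ 2) • v
  have hv2 : ‖v‖ ^ 2 ≠ 0 := by positivity
  have h0 : ⟪v, y0⟫ = a := by
    rw [real_inner_smul_right, real_inner_self_eq_norm_sq, div_mul_cancel₀ a hv2]
  have hset : {y : EuclideanSpace ℝ (Fin n) | ⟪v, y⟫ = a}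
      = (fun y => y0 + y) '' ((ℝ ∙ v)ᗮ : Submodule ℝ (EuclideanSpace ℝ (Fin n))) := by
    ext y
    simp only [mem_ofPred_eq, mem_image, SetLike.mem_coe, Submodule.mem_orthogonal_singleton_iff_inner_right]
    refine ⟨fun h => ⟨y - y0, by rw [inner_sub_right, h, h0, sub_self], by abel⟩, ?_⟩
    rintro ⟨z, hz, rfl⟩
    rw [inner_add_right, h0, hz, add_zero]
  rw [hset, Set.image_add_left, measure_preimage_add]
  refine Measure.addHaar_submodule volume _ fun htop => hv ?_
  have : v ∈ (ℝ ∙ v)ᗮ := htop ▸ Submodule.mem_top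
  rw [Submodule.mem_orthogonal_singleton_iff_inner_right] at this
  exact inner_self_eq_zero.1 this

theorem measurableSet_cell {L : Set (EuclideanSpace ℝ (Fin n))} (hL : MeasurableSet L)
    (p : ι → EuclideanSpace ℝ (Fin n)) (c : ι → ℝ) (i : ι) : MeasurableSet (cell L p c i) := by
  refine hL.inter ?_
  simp only [Set.ofPred_forall]
  exact MeasurableSet.iInter fun j => MeasurableSet.iInter fun _ =>
    measurableSet_lt (by fun_prop) (by fun_prop)

omit [Fintype ι] in
theorem cell_disjoint (L : Set (EuclideanSpace ℝ (Fin n))) (p : ι → EuclideanSpace ℝ (Fin n))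
    (c : ι → ℝ) {i j : ι} (h : i ≠ j) : Disjoint (cell L p c i) (cell L p c j) := by
  rw [Set.disjoint_left]
  intro y hi hj
  exact lt_asymm (hi.2 j h.symm) (hj.2 i h)

/-- The cells exhaust `L` up to a null set. -/
theorem sum_cell {L : Set (EuclideanSpace ℝ (Fin n))} (hL : IsCompact L)
    (p : ι → EuclideanSpace ℝ (Fin n)) (hp : Function.Injective p) [Nonempty ι] (c : ι → ℝ) :
    ∑ i, volume.real (cell L p c i) = volume.real L := by
  rw [← measureReal_iUnion_fintype (fun i j h => cell_disjoint L p c h)
    (fun i => measurableSet_cell hL.measurableSet p c i)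
    (fun i => ((measure_mono (inter_subset_left)).trans_lt hL.measure_lt_top).ne)]
  refine measureReal_congr (Filter.EventuallyEq.symm ?_)
  have hnull : volume (⋃ i, ⋃ j ∈ ({j | j ≠ i} : Set ι), {y | ⟪p j - p i, y⟫ = c j - c i}) = 0 := by
    refine measure_iUnion_null fun i => (measure_biUnion_null_iff (Set.to_countable _)).2 ?_
    exact fun j hj => hyperplane_null (sub_ne_zero.2 (hp.ne hj)) _
  rw [ae_eq_set]
  constructor
  · refine measure_mono_null ?_ hnull
    rintro y ⟨hyL, hy⟩
    obtain ⟨i, -, hi⟩ := Finset.exists_mem_eq_sup' Finset.univ_nonempty (fun i => ⟪p i, y⟫ - c i)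
    simp only [mem_iUnion, not_exists] at hy
    have := hy i
    simp only [cell, mem_inter_iff, hyL, true_and, mem_ofPred_eq, not_forall, not_lt] at this
    obtain ⟨j, hj, hle⟩ := this
    have hge := le_env p c y j
    rw [env, hi] at hge
    simp only [mem_iUnion, mem_ofPred_eq, exists_prop]
    exact ⟨i, j, hj, by rw [inner_sub_left]; linarith⟩
  · convert measure_empty (μ := (volume : Measure (EuclideanSpace ℝ (Fin n))))
    rw [Set.sdiff_eq_empty]
    exact Set.iUnion_subset fun i => inter_subset_left

/-- Weights realising prescribed cell volumes. -/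
theorem exists_weights {L : Set (EuclideanSpace ℝ (Fin n))} (hL : IsCompact L)
    (p : ι → EuclideanSpace ℝ (Fin n)) (hp : Function.Injective p) [Nonempty ι] (ν : ι → ℝ)
    (hν : ∀ i, 0 < ν i) (hsum : ∑ i, ν i = volume.real L) :
    ∃ c : ι → ℝ, ∀ i, volume.real (cell L p c i) = ν i := by
  classical
  have hfin : volume L ≠ ⊤ := hL.measure_lt_top.ne
  set F : (ι → ℝ) → ℝ := fun c => (∫ y in L, env p c y) + ∑ i, ν i * c i with hF
  have hint : ∀ c, IntegrableOn (env p c) L := fun c =>
    (continuous_env p c).continuousOn.integrableOn_compact hL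
  have hlip : ∀ c c', |(∫ y in L, env p c y) - ∫ y in L, env p c' y|
      ≤ ‖c - c'‖ * volume.real L := by
    intro c c'
    rw [← integral_sub (hint c) (hint c')]
    rw [← Real.norm_eq_abs]
    exact norm_setIntegral_le_of_norm_le_const (lt_top_iff_ne_top.2 hfin)
      fun y _ => abs_env_sub_le p c c' y
  have hcont : Continuous F := by
    refine Continuous.add ?_ (by fun_prop)
    refine (LipschitzWith.of_dist_le_mul (K := (volume L).toNNReal) fun c c' => ?_).continuous
    rw [Real.dist_eq, dist_eq_norm, mul_comm]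
    exact hlip c c'
  -- a bound for the linear forms on `L`
  obtain ⟨R, hR⟩ : ∃ R, ∀ y ∈ L, ∀ i, |⟪p i, y⟫| ≤ R := by
    obtain ⟨M, hM⟩ := hL.isBounded.exists_norm_le
    refine ⟨(∑ i, ‖p i‖) * max M 0, fun y hy i => (abs_real_inner_le_norm _ _).trans ?_⟩
    exact mul_le_mul (Finset.single_le_sum (fun j _ => norm_nonneg (p j)) (Finset.mem_univ i))
      ((hM y hy).trans (le_max_left _ _)) (norm_nonneg _) (Finset.sum_nonneg fun j _ => norm_nonneg _)
  have hshift : ∀ c (t : ℝ), F (fun i => c i + t) = F c := by
    intro c t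
    have he : ∀ y, env p (fun i => c i + t) y = env p c y - t := by
      intro y
      apply le_antisymm
      · exact env_le fun i => by have := le_env p c y i; linarith
      · have : env p c y ≤ env p (fun i => c i + t) y + t :=
          env_le fun i => by have := le_env p (fun i => c i + t) y i; linarith
        linarith
    simp only [hF, he]
    rw [integral_sub (hint c) (integrableOn_const hfin)]
    simp only [setIntegral_const, smul_eq_mul, mul_add, Finset.sum_add_distrib, ← Finset.sum_mul,
      hsum]
    ring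
  have hlow : ∀ c : ι → ℝ, (∀ i, 0 ≤ c i) → ∀ i0, c i0 = 0 → ∀ i,
      -R * volume.real L + ν i * c i ≤ F c := by
    intro c hc i0 h0 i
    have h1 : -R * volume.real L ≤ ∫ y in L, env p c y := by
      have : ∫ y in L, (-R : ℝ) ≤ ∫ y in L, env p c y := by
        refine setIntegral_mono_on (integrableOn_const hfin) (hint c) hL.measurableSet fun y hy => ?_
        have h2 := le_env p c y i0
        rw [h0, sub_zero] at h2
        have := (abs_le.1 (hR y hy i0)).1
        linarith
      simpa [mul_comm] using this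
    have h2 : ν i * c i ≤ ∑ j, ν j * c j :=
      Finset.single_le_sum (f := fun j => ν j * c j) (fun j _ => mul_nonneg (hν j).le (hc j))
        (Finset.mem_univ i)
    simp only [hF]
    linarith
  -- a box containing the minimum
  set B : ℝ := ∑ i, |F 0 + R * volume.real L| / ν i with hB
  have hB0 : 0 ≤ B := Finset.sum_nonneg fun i _ => div_nonneg (abs_nonneg _) (hν i).le
  obtain ⟨c, hc, hmin⟩ := (isCompact_Icc (a := (0 : ι → ℝ)) (b := fun _ => B)).exists_isMinOn
    ⟨0, le_rfl, fun _ => hB0⟩ hcont.continuousOn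
  have hglob : ∀ d, F c ≤ F d := by
    intro d
    obtain ⟨i0, -, hi0⟩ := Finset.exists_min_image Finset.univ d Finset.univ_nonempty
    set d' : ι → ℝ := fun i => d i + -d i0
    have hd' : F d' = F d := hshift d _
    have hpos : ∀ i, 0 ≤ d' i := fun i => by have := hi0 i (Finset.mem_univ i); simp [d']; linarith
    rw [← hd']
    by_cases hbox : ∀ i, d' i ≤ B
    · exact hmin ⟨hpos, hbox⟩
    · push Not at hbox
      obtain ⟨i, hi⟩ := hbox
      have h1 := hlow d' hpos i0 (by simp [d']) i
      have h2 : |F 0 + R * volume.real L| / ν i ≤ B :=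
        Finset.single_le_sum (f := fun i => |F 0 + R * volume.real L| / ν i)
          (fun j _ => div_nonneg (abs_nonneg _) (hν j).le) (Finset.mem_univ i)
      rw [div_le_iff₀ (hν i)] at h2
      have h3 : B * ν i < ν i * d' i := by rw [mul_comm]; exact mul_lt_mul_of_pos_left hi (hν i)
      have h4 := le_abs_self (F 0 + R * volume.real L)
      have h5 : F c ≤ F 0 := hmin ⟨le_rfl, fun _ => hB0⟩
      linarith
  refine ⟨c, fun i => ?_⟩
  have hle : ∀ i, volume.real (cell L p c i) ≤ ν i := by
    intro i
    -- the cells with a margin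
    set A : ℕ → Set (EuclideanSpace ℝ (Fin n)) := fun m =>
      L ∩ {y | ∀ j, j ≠ i → ⟪p j, y⟫ - c j + 1 / (m + 1 : ℝ) ≤ ⟪p i, y⟫ - c i} with hA
    have hAm : ∀ m, MeasurableSet (A m) := fun m => by
      refine hL.measurableSet.inter ?_
      simp only [Set.ofPred_forall]
      exact MeasurableSet.iInter fun j => MeasurableSet.iInter fun _ =>
        measurableSet_le (by fun_prop) (by fun_prop)
    have hmono : Monotone A := by
      intro m m' h y hy
      refine ⟨hy.1, fun j hj => le_trans ?_ (hy.2 j hj)⟩
      have : (1 : ℝ) / (m' + 1) ≤ 1 / (m + 1) :=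
        one_div_le_one_div_of_le (by positivity) (by exact_mod_cast Nat.succ_le_succ h)
      linarith
    have hsub : cell L p c i ⊆ ⋃ m, A m := by
      rintro y ⟨hyL, hy⟩
      rw [mem_iUnion]
      by_cases hne : ∃ j, j ≠ i
      · obtain ⟨j1, hj1, hmax⟩ := Finset.exists_max_image (Finset.univ.filter (· ≠ i))
          (fun j => ⟪p j, y⟫ - c j) (by simpa [Finset.filter_nonempty_iff] using hne)
        obtain ⟨m, hm⟩ := exists_nat_one_div_lt
          (sub_pos.2 (hy j1 (Finset.mem_filter.1 hj1).2))
        refine ⟨m, hyL, fun j hj => ?_⟩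
        have := hmax j (Finset.mem_filter.2 ⟨Finset.mem_univ _, hj⟩)
        linarith
      · exact ⟨0, hyL, fun j hj => absurd ⟨j, hj⟩ hne⟩
    have hstep : ∀ m, volume.real (A m) ≤ ν i := by
      intro m
      set t : ℝ := 1 / (m + 1 : ℝ) with ht
      have htpos : 0 < t := by positivity
      set d : ι → ℝ := fun j => if j = i then c j + t else c j with hd
      have hdle : ∀ y, env p d y ≤ env p c y - (A m).indicator (fun _ => t) y := by
        intro y
        refine env_le fun j => ?_
        by_cases hy : y ∈ A m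
        · rw [indicator_of_mem hy]
          have h1 := le_env p c y i
          by_cases hj : j = i
          · subst hj; simp only [hd, if_true]; linarith
          · have h2 := hy.2 j hj
            simp only [hd, if_neg hj]; linarith
        · rw [indicator_of_notMem hy, sub_zero]
          have h1 := le_env p c y j
          simp only [hd]; split_ifs <;> linarith
      have hI : IntegrableOn ((A m).indicator fun _ => t) L :=
        (integrableOn_const hfin).indicator (hAm m)
      have h2 : ∫ y in L, env p d y ≤ (∫ y in L, env p c y) - t * volume.real (A m) := by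
        have h3 := setIntegral_mono (hint d) ((hint c).sub hI) hdle
        simp only [Pi.sub_apply] at h3
        rw [integral_sub (hint c) hI, setIntegral_indicator (hAm m), setIntegral_const,
          smul_eq_mul] at h3
        rwa [show L ∩ A m = A m from inter_eq_right.2 inter_subset_left, mul_comm] at h3
      have h4 : ∑ j, ν j * d j = (∑ j, ν j * c j) + t * ν i := by
        have : ∀ j, ν j * d j = ν j * c j + if j = i then t * ν i else 0 := by
          intro j; simp only [hd]; split_ifs with h
          · subst h; ring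
          · ring
        simp [this, Finset.sum_add_distrib]
      have h5 := hglob d
      simp only [hF] at h5
      rw [h4] at h5
      nlinarith
    have hlim := tendsto_measure_iUnion_atTop (μ := volume) hmono
    have hU : volume (⋃ m, A m) ≠ ⊤ :=
      ((measure_mono (iUnion_subset fun m => inter_subset_left)).trans_lt hL.measure_lt_top).ne
    calc volume.real (cell L p c i) ≤ volume.real (⋃ m, A m) := measureReal_mono hsub hU
      _ ≤ ν i := le_of_tendsto' ((ENNReal.tendsto_toReal hU).comp hlim) hstep
  have htot := sum_cell hL p hp c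
  by_contra hne
  have hlt : volume.real (cell L p c i) < ν i := lt_of_le_of_ne (hle i) hne
  have := Finset.sum_lt_sum (fun j _ => hle j) ⟨i, Finset.mem_univ i, hlt⟩
  rw [htot, hsum] at this
  exact lt_irrefl _ this

end Vale.Agent.P227
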