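import Vale.Agent.P227.Sites
import Vale.Agent.P227.Power

/-!
The logarithmic Minkowski inequality of a zonotope against an arbitrary compact set.
-/

namespace Vale.Agent.P227

open MeasureTheory Set
open scoped RealInnerProductSpace Nat Pointwise

variable {n : ℕ} {ι : Type*} [Fintype ι] (s : ι → EuclideanSpace ℝ (Fin n))

/-- Support function of the zonotope. -/
noncomputable def hs (u : EuclideanSpace ℝ (Fin n)) : ℝ := ∑ i, |⟪s i, u⟫|

theorem hs_smul (t : ℝ) (u : EuclideanSpace ℝ (Fin n)) : hs s (t • u) = |t| * hs s u := by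
  simp [hs, real_inner_smul_right, abs_mul, Finset.mul_sum]

variable [DecidableEq ι]

set_option maxHeartbeats 800000 in
/-- Main inequality. -/
theorem finite_main {L : Set (EuclideanSpace ℝ (Fin n))} (hL : IsCompact L)
    (hpos : 0 < volume.real L) (W : EuclideanSpace ℝ (Fin n) → ℝ)
    (hW : ∀ u, ∀ y ∈ L, ∀ y' ∈ L, ⟪u, y⟫ - ⟪u, y'⟫ ≤ W u)
    (hWs : ∀ (t : ℝ) (u : EuclideanSpace ℝ (Fin n)), W (t • u) = |t| * W u)
    (hD : 0 < ∑ S : Fin n → ι, |dt (s ∘ S)|) :
    Real.log (volume.real L) ≤ Real.log ((∑ S : Fin n → ι, |dt (s ∘ S)|) / n !)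
      + (∑ S : Fin n → ι, |dt (s ∘ S)| * ∑ j, Real.log (W (dual (s ∘ S) j) / hs s (dual (s ∘ S) j)))
        / ∑ S : Fin n → ι, |dt (s ∘ S)| := by
  classical
  set D := ∑ S : Fin n → ι, |dt (s ∘ S)| with hDdef
  obtain ⟨S1, -, hS1⟩ := Finset.exists_ne_zero_of_sum_ne_zero hD.ne'
  have : Nonempty (bases s) := ⟨⟨img S1, (mem_bases s).2 ⟨S1, abs_ne_zero.1 hS1, rfl⟩⟩⟩
  obtain ⟨c, hc⟩ := exists_generic s
  set p : bases s → EuclideanSpace ℝ (Fin n) := fun A => site s c (rep s A) with hpdef
  have hp : Function.Injective p := fun A B hAB => by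
    by_contra hne
    exact hc _ _ (rep_dt s A) (rep_dt s B)
      (by rw [img_rep, img_rep]; exact fun h => hne (Subtype.ext h)) hAB
  have hfac : (0 : ℝ) < n ! := by exact_mod_cast Nat.factorial_pos n
  set ν : bases s → ℝ := fun A => volume.real L * (n ! * |dt (s ∘ rep s A)|) / D with hν
  have hνpos : ∀ A, 0 < ν A := fun A =>
    div_pos (mul_pos hpos (mul_pos hfac (abs_pos.2 (rep_dt s A)))) hD
  have hνsum : ∑ A, ν A = volume.real L := by
    simp only [hν]
    rw [← Finset.sum_div, ← Finset.mul_sum, ← sum_abs_dt, mul_div_assoc, ← hDdef,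
      div_self hD.ne', mul_one]
  obtain ⟨w, hw⟩ := exists_weights hL p hp ν hνpos hνsum
  -- the cell of a tuple and its extents
  set C : (Fin n → ι) → Set (EuclideanSpace ℝ (Fin n)) := fun S =>
    if h : dt (s ∘ S) ≠ 0 then cell L p w ⟨img S, (mem_bases s).2 ⟨S, h, rfl⟩⟩ else ∅ with hCdef
  set hi : (Fin n → ι) → EuclideanSpace ℝ (Fin n) → ℝ := fun S b =>
    sSup ((fun y => ⟪b, y⟫) '' C S) with hhidef
  set lo : (Fin n → ι) → EuclideanSpace ℝ (Fin n) → ℝ := fun S b =>
    sInf ((fun y => ⟪b, y⟫) '' C S) with hlodef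
  have hCL : ∀ S, C S ⊆ L := by
    intro S
    simp only [hCdef]
    split_ifs
    · exact inter_subset_left
    · exact empty_subset _
  have hbdd : ∀ S b, BddAbove ((fun y => ⟪b, y⟫) '' C S) ∧ BddBelow ((fun y => ⟪b, y⟫) '' C S) := by
    intro S b
    have h := hL.image (show Continuous fun y => ⟪b, y⟫ by fun_prop)
    exact ⟨h.bddAbove.mono (image_mono (hCL S)), h.bddBelow.mono (image_mono (hCL S))⟩
  have hbound : ∀ S b, ∀ y ∈ C S, lo S b ≤ ⟪b, y⟫ ∧ ⟪b, y⟫ ≤ hi S b := fun S b y hy =>
    ⟨csInf_le (hbdd S b).2 ⟨y, hy, rfl⟩, le_csSup (hbdd S b).1 ⟨y, hy, rfl⟩⟩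
  have hvolC : ∀ S, dt (s ∘ S) ≠ 0 →
      volume.real (C S) = volume.real L * (n ! * |dt (s ∘ S)|) / D := by
    intro S hS
    simp only [hCdef, dif_pos hS, hw, hν]
    rw [← abs_dt_rep s ⟨img S, (mem_bases s).2 ⟨S, hS, rfl⟩⟩ rfl]
  have hne : ∀ S, dt (s ∘ S) ≠ 0 → (C S).Nonempty := by
    intro S hS
    by_contra h
    rw [Set.not_nonempty_iff_eq_empty] at h
    have := hvolC S hS
    rw [h, measureReal_empty] at this
    have h2 : 0 < volume.real L * (n ! * |dt (s ∘ S)|) / D :=
      div_pos (mul_pos hpos (mul_pos hfac (abs_pos.2 hS))) hD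
    linarith
  have hlole : ∀ S, dt (s ∘ S) ≠ 0 → ∀ b, lo S b ≤ hi S b := fun S hS b => by
    obtain ⟨y, hy⟩ := hne S hS
    exact (hbound S b y hy).1.trans (hbound S b y hy).2
  have hWle : ∀ S, dt (s ∘ S) ≠ 0 → ∀ b, hi S b - lo S b ≤ W b := by
    intro S hS b
    have h1 : hi S b ≤ lo S b + W b := by
      refine csSup_le ((hne S hS).image _) ?_
      rintro _ ⟨y, hy, rfl⟩
      have : ⟪b, y⟫ - W b ≤ lo S b := by
        refine le_csInf ((hne S hS).image _) ?_
        rintro _ ⟨y', hy', rfl⟩
        have := hW b y (hCL S hy) y' (hCL S hy')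
        linarith
      linarith
    linarith
  have hlen : ∀ S, dt (s ∘ S) ≠ 0 → ∀ j, 0 < hi S (dual (s ∘ S) j) - lo S (dual (s ∘ S) j) ∧
      volume.real L * n ! / D ≤ ∏ k, (hi S (dual (s ∘ S) k) - lo S (dual (s ∘ S) k)) := by
    intro S hS j
    have h1 := volume_le_of_dual_bound hS (S := C S) (lo := fun k => lo S (dual (s ∘ S) k))
      (hi := fun k => hi S (dual (s ∘ S) k)) (fun k => hlole S hS _) fun y hy k => hbound S _ y hy
    rw [hvolC S hS] at h1
    have h2 : volume.real L * n ! / D ≤ ∏ k, (hi S (dual (s ∘ S) k) - lo S (dual (s ∘ S) k)) := by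
      refine le_of_mul_le_mul_left ?_ (abs_pos.2 hS)
      calc |dt (s ∘ S)| * (volume.real L * n ! / D)
          = volume.real L * (n ! * |dt (s ∘ S)|) / D := by ring
        _ ≤ _ := h1
    refine ⟨lt_of_le_of_ne (sub_nonneg.2 (hlole S hS _)) fun h => ?_, h2⟩
    rw [Finset.prod_eq_zero (Finset.mem_univ j) h.symm] at h2
    have : 0 < volume.real L * n ! / D := div_pos (mul_pos hpos hfac) hD
    linarith
  -- the ratio used in the Gibbs step
  set f : (Fin n → ι) → Fin n → ℝ := fun S j =>
    |dt (s ∘ S)| * ((hi S (dual (s ∘ S) j) - lo S (dual (s ∘ S) j))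
      * hs s (dual (s ∘ S) j) / W (dual (s ∘ S) j)) with hfdef
  have hkey : ∀ (S : Fin n → ι) (j : Fin n),
      ∑ i, f (Function.update S j i) j ≤ ∑ i, |dt (s ∘ Function.update S j i)| := by
    intro S0 j
    by_cases hall : ∀ i, dt (s ∘ Function.update S0 j i) = 0
    · simp [hfdef, hall]
    push Not at hall
    obtain ⟨i0, hi0⟩ := hall
    set S := Function.update S0 j i0 with hSdef
    have hupd : ∀ i, Function.update S0 j i = Function.update S j i := fun i => by
      simp [hSdef]
    simp only [hupd]
    set b := dual (s ∘ S) j with hb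
    have hdt : ∀ i, dt (s ∘ Function.update S j i) = ⟪s i, b⟫ * dt (s ∘ S) := fun i => by
      rw [Function.comp_update, dt_update _ hi0]
    have hb1 : ⟪s (S j), b⟫ = 1 := by simpa using inner_dual (s ∘ S) hi0 j j
    have hhb : 0 < hs s b := by
      refine lt_of_lt_of_le one_pos ?_
      rw [← abs_one (α := ℝ), ← hb1]
      exact Finset.single_le_sum (f := fun i => |⟪s i, b⟫|) (fun i _ => abs_nonneg _)
        (Finset.mem_univ _)
    have hWb : 0 < W b := lt_of_lt_of_le (hlen S hi0 j).1 (hWle S hi0 b)
    have hdual : ∀ i, ⟪s i, b⟫ ≠ 0 → dual (s ∘ Function.update S j i) j = (⟪s i, b⟫)⁻¹ • b := by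
      intro i hi'
      have hne' : dt (s ∘ Function.update S j i) ≠ 0 := by
        rw [hdt]; exact mul_ne_zero hi' hi0
      refine sub_eq_zero.1 (eq_zero_of_inner_eq_zero hne' fun k => ?_)
      rw [inner_sub_right, inner_dual _ hne', real_inner_smul_right]
      by_cases hk : k = j
      · subst hk; simp [hi']
      · have := inner_dual (s ∘ S) hi0 k j
        rw [if_neg hk] at this
        simp only [Function.comp_apply] at this
        simp [Function.update_of_ne hk, hk, hb, this]
    -- the extents along the common direction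
    have hf : ∀ i, f (Function.update S j i) j
        = if ⟪s i, b⟫ = 0 then 0 else
          (hi (Function.update S j i) b - lo (Function.update S j i) b)
            * (|dt (s ∘ S)| * hs s b / W b) := by
      intro i
      by_cases hi' : ⟪s i, b⟫ = 0
      · simp [hfdef, hdt i, hi']
      rw [if_neg hi']
      simp only [hfdef, hdual i hi', hdt i, hs_smul, hWs, abs_mul, abs_inv]
      set μ := ⟪s i, b⟫
      set T := Function.update S j i
      have hsc : hi T (μ⁻¹ • b) - lo T (μ⁻¹ • b) = |μ|⁻¹ * (hi T b - lo T b) := by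
        have e : (fun y => ⟪μ⁻¹ • b, y⟫) '' C T = μ⁻¹ • ((fun y => ⟪b, y⟫) '' C T) := by
          rw [← Set.image_smul, ← Set.image_comp]
          exact image_congr fun y _ => by simp [real_inner_smul_left]
        simp only [hhidef, hlodef, e]
        rcases lt_or_gt_of_ne hi' with hneg | hpos'
        · rw [Real.sSup_smul_of_nonpos (inv_nonpos.2 hneg.le),
            Real.sInf_smul_of_nonpos (inv_nonpos.2 hneg.le), abs_of_neg hneg, inv_neg]
          simp only [smul_eq_mul]; ring
        · rw [Real.sSup_smul_of_nonneg (inv_nonneg.2 hpos'.le),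
            Real.sInf_smul_of_nonneg (inv_nonneg.2 hpos'.le), abs_of_pos hpos']
          simp only [smul_eq_mul]; ring
      rw [hsc]
      have : |μ| ≠ 0 := abs_ne_zero.2 hi'
      field_simp
    have hord : ∀ i i', ⟪s i, b⟫ ≠ 0 → ⟪s i', b⟫ ≠ 0 → i ≠ i' →
        hi (Function.update S j i) b ≤ lo (Function.update S j i') b
          ∨ hi (Function.update S j i') b ≤ lo (Function.update S j i) b := by
      intro i i' hbi hbi' hii
      set T := Function.update S j i with hT
      set T' := Function.update S j i' with hT'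
      have hdT : dt (s ∘ T) ≠ 0 := by rw [hdt]; exact mul_ne_zero hbi hi0
      have hdT' : dt (s ∘ T') ≠ 0 := by rw [hdt]; exact mul_ne_zero hbi' hi0
      set A : bases s := ⟨img T, (mem_bases s).2 ⟨T, hdT, rfl⟩⟩ with hA
      set A' : bases s := ⟨img T', (mem_bases s).2 ⟨T', hdT', rfl⟩⟩ with hA'
      have hAA : A ≠ A' := by
        intro h
        have h' : img T = img T' := congrArg Subtype.val h
        have hmem : i ∈ img T' := h' ▸ Finset.mem_image.2 ⟨j, Finset.mem_univ j, by simp [hT]⟩
        obtain ⟨k, -, hk⟩ := Finset.mem_image.1 hmem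
        by_cases hkj : k = j
        · subst hkj; simp [hT'] at hk; exact hii hk.symm
        · rw [hT', Function.update_of_ne hkj] at hk
          have := inner_dual (s ∘ S) hi0 k j
          rw [if_neg hkj, Function.comp_apply, hk, ← hb] at this
          exact hbi this
      set τ := ⟪s (S j), p A' - p A⟫ with hτ
      have hτb : p A' - p A = τ • b := by
        refine sub_eq_zero.1 (eq_zero_of_inner_eq_zero hi0 fun k => ?_)
        rw [inner_sub_right, real_inner_smul_right, hb, inner_dual _ hi0]
        by_cases hk : k = j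
        · subst hk; simp [hτ]
        · have e : ∀ (U : Fin n → ι) (hU : dt (s ∘ U) ≠ 0), U k = S k →
              ⟪s (S k), p ⟨img U, (mem_bases s).2 ⟨U, hU, rfl⟩⟩⟫ = c (S k) := by
            intro U hU hUk
            rw [hpdef]
            simp only []
            rw [site_congr s c (rep_dt s _) hU (img_rep s _), ← hUk, inner_site s c hU]
          rw [if_neg hk, mul_zero, sub_zero, Function.comp_apply, inner_sub_right,
            e T hdT (Function.update_of_ne hk _ _), e T' hdT' (Function.update_of_ne hk _ _),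
            sub_self]
      have hτ0 : τ ≠ 0 := fun h => hAA (hp (sub_eq_zero.1 (by rw [hτb, h, zero_smul])).symm)
      have hsep : ∀ y ∈ C T, ∀ y' ∈ C T', τ * ⟪b, y⟫ < τ * ⟪b, y'⟫ := by
        intro y hy y' hy'
        simp only [hCdef, dif_pos hdT] at hy
        simp only [hCdef, dif_pos hdT'] at hy'
        have h1 := hy.2 A' hAA.symm
        have h2 := hy'.2 A hAA
        have e1 : ∀ z, τ * ⟪b, z⟫ = ⟪p A', z⟫ - ⟪p A, z⟫ := fun z => by
          rw [← real_inner_smul_left, ← hτb, inner_sub_left]
        rw [e1, e1]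
        simp only [← hA, ← hA'] at h1 h2
        linarith
      rcases lt_or_gt_of_ne hτ0 with hneg | hpos'
      · right
        refine csSup_le ((hne T' hdT').image _) ?_
        rintro _ ⟨y', hy', rfl⟩
        refine le_csInf ((hne T hdT).image _) ?_
        rintro _ ⟨y, hy, rfl⟩
        nlinarith [hsep y hy y' hy']
      · left
        refine csSup_le ((hne T hdT).image _) ?_
        rintro _ ⟨y, hy, rfl⟩
        refine le_csInf ((hne T' hdT').image _) ?_
        rintro _ ⟨y', hy', rfl⟩
        nlinarith [hsep y hy y' hy']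
    set G : Finset ι := Finset.univ.filter fun i => ⟪s i, b⟫ ≠ 0 with hG
    have htotal : ∑ i ∈ G, (hi (Function.update S j i) b - lo (Function.update S j i) b) ≤ W b := by
      have hdG : ∀ i ∈ G, dt (s ∘ Function.update S j i) ≠ 0 := fun i hiG => by
        rw [hdt]; exact mul_ne_zero (Finset.mem_filter.1 hiG).2 hi0
      have hdisj : (G : Set ι).PairwiseDisjoint fun i =>
          Ioo (lo (Function.update S j i) b) (hi (Function.update S j i) b) := by
        intro i hiG i' hiG' hii
        rw [Finset.mem_coe] at hiG hiG'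
        rcases hord i i' (Finset.mem_filter.1 hiG).2 (Finset.mem_filter.1 hiG').2 hii with h | h
        · exact Set.disjoint_left.2 fun z hz hz' => by linarith [hz.2, hz'.1]
        · exact Set.disjoint_left.2 fun z hz hz' => by linarith [hz.1, hz'.2]
      have hsum : ∑ i ∈ G, (hi (Function.update S j i) b - lo (Function.update S j i) b)
          = volume.real (⋃ i ∈ G, Ioo (lo (Function.update S j i) b) (hi (Function.update S j i) b)) := by
        rw [measureReal_biUnion_finset hdisj (fun i _ => measurableSet_Ioo)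
          (fun i _ => measure_Ioo_lt_top.ne)]
        exact Finset.sum_congr rfl fun i hiG => (Real.volume_real_Ioo_of_le (hlole _ (hdG i hiG) b)).symm
      obtain ⟨y0, hy0⟩ := hne S hi0
      set m := sInf ((fun y => ⟪b, y⟫) '' L) with hm
      have hmL := (hL.image (show Continuous fun y => ⟪b, y⟫ by fun_prop))
      rw [hsum]
      refine (measureReal_mono (s₂ := Icc m (m + W b)) ?_ measure_Icc_lt_top.ne).trans
        (by rw [Real.volume_real_Icc_of_le (by linarith)]; linarith)
      refine iUnion₂_subset fun i hiG z hz => ⟨?_, ?_⟩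
      · have : m ≤ lo (Function.update S j i) b := by
          refine le_csInf ((hne _ (hdG i hiG)).image _) ?_
          rintro _ ⟨y, hy, rfl⟩
          exact csInf_le hmL.bddBelow ⟨y, hCL _ hy, rfl⟩
        linarith [hz.1]
      · have : hi (Function.update S j i) b ≤ m + W b := by
          refine csSup_le ((hne _ (hdG i hiG)).image _) ?_
          rintro _ ⟨y, hy, rfl⟩
          have : ⟪b, y⟫ - W b ≤ m := by
            refine le_csInf ⟨_, ⟨y0, hCL _ hy0, rfl⟩⟩ ?_
            rintro _ ⟨y', hy', rfl⟩
            linarith [hW b y (hCL _ hy) y' hy']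
          linarith
        linarith [hz.2]
    calc ∑ i, f (Function.update S j i) j
        = (∑ i ∈ G, (hi (Function.update S j i) b - lo (Function.update S j i) b))
            * (|dt (s ∘ S)| * hs s b / W b) := by
          rw [Finset.sum_mul, hG, Finset.sum_filter]
          refine Finset.sum_congr rfl fun i _ => ?_
          rw [hf i]; simp only [ne_eq, ite_not]
      _ ≤ W b * (|dt (s ∘ S)| * hs s b / W b) :=
          mul_le_mul_of_nonneg_right htotal
            (div_nonneg (mul_nonneg (abs_nonneg _) hhb.le) hWb.le)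
      _ = ∑ i, |dt (s ∘ Function.update S j i)| := by
          simp only [hdt, abs_mul, ← Finset.sum_mul]
          rw [mul_div_cancel₀ _ hWb.ne', hs, mul_comm]
  have hfsum : ∀ j, ∑ S, f S j ≤ D := by
    intro j
    rw [hDdef, ← (Equiv.funSplitAt j ι).symm.sum_comp, ← (Equiv.funSplitAt j ι).symm.sum_comp,
      Fintype.sum_prod_type_right, Fintype.sum_prod_type_right]
    refine Finset.sum_le_sum fun r _ => ?_
    have e : ∀ i i', (Equiv.funSplitAt j ι).symm (i', r)
        = Function.update ((Equiv.funSplitAt j ι).symm (i, r)) j i' := by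
      intro i i'
      funext k
      by_cases hk : k = j
      · subst hk; simp
      · simp [Function.update_of_ne hk, hk]
    have h := hkey ((Equiv.funSplitAt j ι).symm (S1 j, r)) j
    simpa only [← e] using h
  -- Gibbs
  have hmain : D * Real.log (volume.real L * n ! / D)
      ≤ ∑ S, |dt (s ∘ S)| * ∑ j, Real.log (W (dual (s ∘ S) j) / hs s (dual (s ∘ S) j)) := by
    have h1 : D * Real.log (volume.real L * n ! / D) ≤ ∑ S, (|dt (s ∘ S)|
        * ∑ j, Real.log (W (dual (s ∘ S) j) / hs s (dual (s ∘ S) j))
        + ∑ j, (f S j - |dt (s ∘ S)|)) := by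
      rw [hDdef, Finset.sum_mul]
      refine Finset.sum_le_sum fun S _ => ?_
      by_cases hS : dt (s ∘ S) = 0
      · simp [hfdef, hS]
      have hl := hlen S hS
      rw [← hDdef]
      calc |dt (s ∘ S)| * Real.log (volume.real L * n ! / D)
          ≤ |dt (s ∘ S)| * ∑ j, Real.log (hi S (dual (s ∘ S) j) - lo S (dual (s ∘ S) j)) := by
            refine mul_le_mul_of_nonneg_left ?_ (abs_nonneg _)
            rw [← Real.log_prod fun j _ => (hl j).1.ne']
            rcases isEmpty_or_nonempty (Fin n) with hn | hn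
            · have h0 := volume_le_of_dual_bound hS (S := C S) (lo := fun _ => 0) (hi := fun _ => 0)
                le_rfl fun y _ k => hn.elim k
              rw [hvolC S hS] at h0
              simp only [Finset.univ_eq_empty, Finset.prod_empty, mul_one, Real.log_one] at h0 ⊢
              refine Real.log_nonpos (div_pos (mul_pos hpos hfac) hD).le ?_
              refine le_of_mul_le_mul_left ?_ (abs_pos.2 hS)
              rw [mul_one]
              calc |dt (s ∘ S)| * (volume.real L * n ! / D)
                  = volume.real L * (n ! * |dt (s ∘ S)|) / D := by ring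
                _ ≤ _ := h0
            · exact Real.log_le_log (div_pos (mul_pos hpos hfac) hD) (hl hn.some).2
        _ ≤ _ := by
            rw [Finset.mul_sum, Finset.mul_sum, ← Finset.sum_add_distrib]
            refine Finset.sum_le_sum fun j _ => ?_
            set b := dual (s ∘ S) j
            set ℓ := hi S b - lo S b
            have hℓ : 0 < ℓ := (hl j).1
            have hWb : 0 < W b := lt_of_lt_of_le hℓ (hWle S hS b)
            have hhb : 0 < hs s b := by
              refine lt_of_lt_of_le one_pos ?_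
              have hb1 : ⟪s (S j), b⟫ = 1 := by simpa using inner_dual (s ∘ S) hS j j
              rw [← abs_one (α := ℝ), ← hb1]
              exact Finset.single_le_sum (f := fun i => |⟪s i, b⟫|) (fun i _ => abs_nonneg _)
                (Finset.mem_univ _)
            have h := Real.log_le_sub_one_of_pos (div_pos (mul_pos hℓ hhb) hWb)
            have e : Real.log ℓ = Real.log (W b / hs s b) + Real.log (ℓ * hs s b / W b) := by
              rw [← Real.log_mul (div_pos hWb hhb).ne' (div_pos (mul_pos hℓ hhb) hWb).ne']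
              congr 1; field_simp
            rw [e]
            have := mul_le_mul_of_nonneg_left h (abs_nonneg (dt (s ∘ S)))
            simp only [hfdef]
            linarith
    refine h1.trans (le_of_eq_of_le Finset.sum_add_distrib (add_le_of_nonpos_right ?_))
    rw [Finset.sum_comm]
    refine Finset.sum_nonpos fun j _ => ?_
    rw [Finset.sum_sub_distrib, ← hDdef, sub_nonpos]
    exact hfsum j
  have e : Real.log (volume.real L * n ! / D) = Real.log (volume.real L) - Real.log (D / n !) := by
    rw [← Real.log_div hpos.ne' (div_pos hD hfac).ne']; congr 1; field_simp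
  rw [e] at hmain
  rw [← sub_le_iff_le_add', le_div_iff₀ hD]
  linarith

end Vale.Agent.P227
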