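import Vale.Agent.P227.Zonoid

/-!
Discretisation of the generating measure and passage to the limit.
-/

namespace Vale.Agent.P227

open MeasureTheory Set Filter
open scoped RealInnerProductSpace Nat Topology Pointwise

variable {n : ℕ}

theorem dt_smul (m : Fin n → ℝ) (v : Fin n → EuclideanSpace ℝ (Fin n)) :
    dt (fun i => m i • v i) = (∏ i, m i) * dt v := by
  rw [dt, dt, ← Matrix.det_mul_column]
  rfl

theorem dual_smul {m : Fin n → ℝ} {v : Fin n → EuclideanSpace ℝ (Fin n)}
    (h : dt (fun i => m i • v i) ≠ 0) (j : Fin n) :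
    dual (fun i => m i • v i) j = (m j)⁻¹ • dual v j := by
  rw [dt_smul] at h
  have hm : ∀ i, m i ≠ 0 := fun i => Finset.prod_ne_zero_iff.1 (left_ne_zero_of_mul h) i (Finset.mem_univ i)
  have hv : dt v ≠ 0 := right_ne_zero_of_mul h
  have h' : dt (fun i => m i • v i) ≠ 0 := by rw [dt_smul]; exact h
  refine sub_eq_zero.1 (eq_zero_of_inner_eq_zero h' fun k => ?_)
  rw [inner_sub_right, inner_dual _ h', real_inner_smul_left, real_inner_smul_right,
    inner_dual v hv]
  split_ifs with hk
  · subst hk; field_simp [hm k]; ring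
  · simp

/-- The weight of a tuple in the mean bound. -/
noncomputable def wgt (g h : EuclideanSpace ℝ (Fin n) → ℝ)
    (v : Fin n → EuclideanSpace ℝ (Fin n)) : ℝ :=
  |dt v| * ∑ j, Real.log (g (dual v j) / h (dual v j))

set_option maxHeartbeats 800000 in
/-- A body majorised by the mean bound on every zonotope is no larger than the zonoid. -/
theorem zonoid_bound (ρ : Measure (EuclideanSpace ℝ (Fin n))) [IsFiniteMeasure ρ] {R : ℝ}
    (hR : ∀ᵐ s ∂ρ, ‖s‖ ≤ R) {g : EuclideanSpace ℝ (Fin n) → ℝ} (gc : Continuous g)
    (gh : ∀ (t : ℝ) u, 0 ≤ t → g (t • u) = t * g u) (gpos : ∀ u, u ≠ 0 → 0 < g u)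
    (hEq : wset g = wset (hr ρ)) {T : ℝ} (hT : 0 < T)
    (bound : ∀ (m : ℕ) (s : Fin m → EuclideanSpace ℝ (Fin n)),
      0 < ∑ S : Fin n → Fin m, |dt (s ∘ S)| →
      Real.log T ≤ Real.log (2 ^ n * (∑ S : Fin n → Fin m, |dt (s ∘ S)|) / n !)
        + (∑ S : Fin n → Fin m, wgt g (hs s) (s ∘ S)) / ∑ S : Fin n → Fin m, |dt (s ∘ S)|) :
    T ≤ volume.real (wset g) := by
  classical
  set μ := Measure.pi fun _ : Fin n => ρ with hμ
  obtain ⟨r, hr0, hrlow⟩ := exists_hr_lower ρ gc gh gpos hEq
  have hrle := hr_le ρ hR gh hEq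
  set h := hr ρ with hh
  have hh' : ∀ u, 0 ≤ h u := fun u => integral_nonneg fun s => abs_nonneg _
  have hspan := span_pos ρ hR fun u hu =>
    lt_of_lt_of_le (mul_pos hr0 (norm_pos_iff.2 hu)) (hrlow u)
  -- the discretisation
  set π : ℕ → SimpleFunc (EuclideanSpace ℝ (Fin n)) (EuclideanSpace ℝ (Fin n)) := fun N =>
    SimpleFunc.nearestPt (TopologicalSpace.denseSeq (EuclideanSpace ℝ (Fin n))) N
  have hlim : ∀ x, Tendsto (fun N => π N x) atTop (𝓝 x) := fun x =>
    SimpleFunc.tendsto_nearestPt (by
      rw [(TopologicalSpace.denseRange_denseSeq (EuclideanSpace ℝ (Fin n))).closure_range]; exact mem_univ x)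
  set e0 := TopologicalSpace.denseSeq (EuclideanSpace ℝ (Fin n)) 0
  have hπb : ∀ N x, ‖π N x - x‖ ≤ ‖x‖ + ‖e0‖ := by
    intro N x
    have h1 := SimpleFunc.edist_nearestPt_le
      (TopologicalSpace.denseSeq (EuclideanSpace ℝ (Fin n))) x (Nat.zero_le N)
    simp only [edist_dist, ENNReal.ofReal_le_ofReal_iff dist_nonneg] at h1
    rw [← dist_eq_norm]
    refine h1.trans ?_
    rw [dist_eq_norm, add_comm]
    exact norm_sub_le _ _
  set R' : ℝ := 2 * R + ‖e0‖ with hR'
  have hπR : ∀ N, ∀ᵐ x ∂ρ, ‖π N x‖ ≤ R' := fun N => hR.mono fun x hx => by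
    have h1 := hπb N x
    have h2 := norm_le_norm_add_norm_sub' (π N x) x
    linarith
  -- the rate of the discretisation
  set ε : ℕ → ℝ := fun N => ∫ x, ‖π N x - x‖ ∂ρ with hε
  have hεi : ∀ N, Integrable (fun x => ‖π N x - x‖) ρ := fun N =>
    Integrable.mono' (integrable_const (R + ‖e0‖))
      ((π N).measurable.sub measurable_id).norm.aestronglyMeasurable
      (hR.mono fun x hx => by rw [norm_norm]; exact (hπb N x).trans (by linarith))
  have hε0 : Tendsto ε atTop (𝓝 0) := by
    have := tendsto_integral_of_dominated_convergence (μ := ρ) (fun _ => R + ‖e0‖)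
      (fun N => (hεi N).aestronglyMeasurable) (integrable_const _)
      (fun N => hR.mono fun x hx => by rw [norm_norm]; exact (hπb N x).trans (by linarith))
      (Eventually.of_forall fun x => by
        simpa using ((hlim x).sub (tendsto_const_nhds (x := x))).norm)
    simpa using this
  have hεnn : ∀ N, 0 ≤ ε N := fun N => integral_nonneg fun x => norm_nonneg _
  -- dominated limits over tuples
  set I : ℕ → ℝ := fun N => ∫ v, wgt g h (π N ∘ v) ∂μ with hI
  set D : ℕ → ℝ := fun N => ∫ v, |dt (π N ∘ v)| ∂μ with hD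
  obtain ⟨M, hM⟩ := ((isCompact_univ_pi fun _ : Fin n =>
    isCompact_closedBall (0 : EuclideanSpace ℝ (Fin n)) R').image continuous_dt.abs).bddAbove
  have hπball : ∀ N, ∀ᵐ v ∂μ, |dt (π N ∘ v)| ≤ M := fun N => by
    have hall : ∀ᵐ v ∂μ, ∀ i, ‖π N (v i)‖ ≤ R' :=
      ae_all_iff.2 fun i =>
        (Measure.tendsto_eval_ae_ae (μ := fun _ : Fin n => ρ) (i := i)).eventually (hπR N)
    filter_upwards [hall] with v hv
    exact hM ⟨_, fun i _ => mem_closedBall_zero_iff.2 (hv i), rfl⟩
  have hπm : ∀ N, Measurable fun v : Fin n → EuclideanSpace ℝ (Fin n) => π N ∘ v := fun N =>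
    measurable_pi_lambda _ fun i => (π N).measurable.comp (measurable_pi_apply i)
  have hπlim : ∀ v : Fin n → EuclideanSpace ℝ (Fin n),
      Tendsto (fun N => π N ∘ v) atTop (𝓝 v) := fun v => tendsto_pi_nhds.2 fun i => hlim (v i)
  have hDlim : Tendsto D atTop (𝓝 (∫ v, |dt v| ∂μ)) :=
    tendsto_integral_of_dominated_convergence (fun _ => M)
      (fun N => (continuous_dt.abs.measurable.comp (hπm N)).aestronglyMeasurable)
      (integrable_const _) (fun N => (hπball N).mono fun v hv => by
        rw [Real.norm_eq_abs, abs_abs]; exact hv)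
      (Eventually.of_forall fun v => (continuous_dt.abs.tendsto v).comp (hπlim v))
  -- the logarithmic ratio is bounded
  obtain ⟨G, hG⟩ : ∃ G, ∀ u ∈ Metric.sphere (0 : EuclideanSpace ℝ (Fin n)) 1, g u ≤ G := by
    obtain ⟨G, hG⟩ := ((isCompact_sphere (0 : EuclideanSpace ℝ (Fin n)) 1).image gc).bddAbove
    exact ⟨G, fun u hu => hG ⟨u, hu, rfl⟩⟩
  have hlog : ∀ b : EuclideanSpace ℝ (Fin n),
      |Real.log (g b / h b)| ≤ |Real.log (G / r)| := by
    intro b
    rcases eq_or_ne b 0 with rfl | hb
    · have h00 : h 0 = 0 := by simp [hh, hr]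
      simp [h00]
    have hn : 0 < ‖b‖ := norm_pos_iff.2 hb
    have hhb : 0 < h b := lt_of_lt_of_le (mul_pos hr0 hn) (hrlow b)
    have h1 : 1 ≤ g b / h b := (le_div_iff₀ hhb).2 (by linarith [hrle b])
    have h2 : g b / h b ≤ G / r := by
      rw [div_le_div_iff₀ hhb hr0]
      have h3 := hG (‖b‖⁻¹ • b) (by simp [norm_smul, hn.ne'])
      rw [gh _ _ (inv_nonneg.2 hn.le), ← div_eq_inv_mul, div_le_iff₀ hn] at h3
      have hG0 : 0 ≤ G := by
        have := gpos b hb
        by_contra hneg
        nlinarith
      nlinarith [hrlow b, mul_le_mul_of_nonneg_left (hrlow b) hG0]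
    rw [abs_of_nonneg (Real.log_nonneg h1)]
    exact (Real.log_le_log (by linarith) h2).trans (le_abs_self _)
  have hwb : ∀ v, |wgt g h v| ≤ |dt v| * (n * |Real.log (G / r)|) := by
    intro v
    rw [wgt, abs_mul, abs_abs]
    refine mul_le_mul_of_nonneg_left ((Finset.abs_sum_le_sum_abs _ _).trans ?_) (abs_nonneg _)
    exact (Finset.sum_le_sum fun j _ => hlog _).trans (by simp)
  have hhc : Continuous h := by
    refine continuous_iff_continuousAt.2 fun u => ?_
    refine continuousAt_of_dominated (bound := fun _ => R * (‖u‖ + 1)) ?_ ?_ (integrable_const _) ?_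
    · exact Eventually.of_forall fun u' => (Continuous.aestronglyMeasurable (by fun_prop))
    · filter_upwards [Metric.ball_mem_nhds u one_pos] with u' hu'
      filter_upwards [hR] with x hx
      rw [Real.norm_eq_abs, abs_abs]
      refine (abs_real_inner_le_norm _ _).trans ?_
      have h1 : ‖u'‖ ≤ ‖u‖ + 1 := by
        rw [Metric.mem_ball, dist_eq_norm] at hu'
        linarith [norm_le_norm_add_norm_sub' u' u]
      exact mul_le_mul hx h1 (norm_nonneg _) ((norm_nonneg x).trans hx)
    · exact Eventually.of_forall fun x => Continuous.continuousAt (by fun_prop)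
  have hgm : Measurable h := hhc.measurable
  have hwm : Measurable (wgt g h) := by
    have hd : ∀ j, Measurable fun v : Fin n → EuclideanSpace ℝ (Fin n) => dual v j := fun j => by
      refine (PiLp.continuous_toLp 2 _).measurable.comp (measurable_pi_lambda _ fun c => ?_)
      have hMc : Continuous fun w : Fin n → EuclideanSpace ℝ (Fin n) =>
          (Matrix.of fun i c => w i c : Matrix (Fin n) (Fin n) ℝ) := by
        refine continuous_matrix fun i c => ?_
        simp only [Matrix.of_apply]
        fun_prop
      exact continuous_dt.measurable.inv.mul (hMc.matrix_adjugate.matrix_elem c j).measurable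
    exact continuous_dt.abs.measurable.mul (Finset.measurable_sum _ fun j _ =>
      ((gc.measurable.comp (hd j)).div (hgm.comp (hd j))).log)
  have hIlim : Tendsto I atTop (𝓝 0) := by
    have h1 : Tendsto I atTop (𝓝 (∫ _, (0 : ℝ) ∂μ)) := by
      refine tendsto_integral_of_dominated_convergence (fun _ => M * (n * |Real.log (G / r)|))
        (fun N => (hwm.comp (hπm N)).aestronglyMeasurable) (integrable_const _)
        (fun N => (hπball N).mono fun v hv => by
          rw [Real.norm_eq_abs]
          exact (hwb _).trans (mul_le_mul_of_nonneg_right hv (by positivity))) ?_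
      filter_upwards [ae_contact ρ hR gc gh gpos hEq] with v hv
      by_cases hdt : dt v = 0
      · refine squeeze_zero_norm (fun N => (Real.norm_eq_abs _).trans_le (hwb _)) ?_
        have h2 := ((continuous_dt.abs.tendsto v).comp (hπlim v)).mul_const (n * |Real.log (G / r)|)
        simpa [hdt] using h2
      · have hc : ContinuousAt (wgt g h) v := by
          refine continuous_dt.abs.continuousAt.mul (tendsto_finsetSum _ fun j _ => ?_)
          have hbne : dual v j ≠ 0 := fun h0 => by
            have := inner_dual v hdt j j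
            rw [h0, inner_zero_right, if_pos rfl] at this
            exact zero_ne_one this
          have hhp : 0 < h (dual v j) :=
            lt_of_lt_of_le (mul_pos hr0 (norm_pos_iff.2 hbne)) (hrlow _)
          refine ContinuousAt.log ((gc.continuousAt.comp (continuousAt_dual hdt j)).div
            (ContinuousAt.comp (g := h) ?_ (continuousAt_dual hdt j)) hhp.ne')
            (div_pos (gpos _ hbne) hhp).ne'
          exact hhc.continuousAt
        have hz : wgt g h v = 0 := by
          simp only [wgt]
          refine mul_eq_zero_of_right _ (Finset.sum_eq_zero fun j _ => ?_)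
          have hbne : dual v j ≠ 0 := fun h0 => by
            have := inner_dual v hdt j j
            rw [h0, inner_zero_right, if_pos rfl] at this
            exact zero_ne_one this
          rw [hh, ← hv hdt j, div_self (gpos _ hbne).ne', Real.log_one]
        rw [← hz]
        exact hc.tendsto.comp (hπlim v)
    simpa using h1
  -- each stage
  have hstage : ∀ N, ε N < r → 0 < D N →
      Real.log T ≤ Real.log (((1 + ε N / r) ^ n) * volume.real (wset g))
        + (I N / D N - n * Real.log (1 - ε N / r)) := by
    intro N hεr hDN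
    set P := {x // x ∈ (π N).range}
    set κ : EuclideanSpace ℝ (Fin n) → P := fun x => ⟨π N x, SimpleFunc.mem_range_self _ x⟩
    have hκ : Measurable κ := (π N).measurable.subtype_mk
    set w : P → ℝ := fun p => (ρ.map κ).real {p} with hw
    have hw0 : ∀ p, 0 ≤ w p := fun p => measureReal_nonneg
    set ec := (Fintype.equivFin P).symm with hec
    set s : Fin (Fintype.card P) → EuclideanSpace ℝ (Fin n) := fun i => w (ec i) • (ec i : EuclideanSpace ℝ (Fin n))
    have hmean : ∀ F : (Fin n → EuclideanSpace ℝ (Fin n)) → ℝ, ∫ v, F (π N ∘ v) ∂μ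
        = ∑ S : Fin n → Fin (Fintype.card P), (∏ k, w (ec (S k))) * F (fun k => (ec (S k) : EuclideanSpace ℝ (Fin n))) := by
      intro F
      have h1 : ∫ v, F (π N ∘ v) ∂μ
          = ∫ p, F (fun k => (p k : EuclideanSpace ℝ (Fin n))) ∂(μ.map fun v k => κ (v k)) := by
        rw [integral_map]
        · rfl
        · exact (measurable_pi_lambda _ fun k => hκ.comp (measurable_pi_apply k)).aemeasurable
        · exact (measurable_of_finite _).aestronglyMeasurable
      rw [h1, Measure.pi_map_pi fun _ => hκ.aemeasurable, integral_fintype (Integrable.of_finite),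
        ← (Equiv.piCongrRight fun _ : Fin n => ec).sum_comp]
      refine Finset.sum_congr rfl fun S _ => ?_
      rw [smul_eq_mul]
      congr 1
      rw [measureReal_def, ← Set.univ_pi_singleton, Measure.pi_pi, ENNReal.toReal_prod]
      rfl
    have hhs : ∀ u, hs s u = ∫ x, |⟪π N x, u⟫| ∂ρ := by
      intro u
      have h1 : ∫ x, |⟪π N x, u⟫| ∂ρ = ∫ p, |⟪(p : EuclideanSpace ℝ (Fin n)), u⟫| ∂(ρ.map κ) := by
        rw [integral_map hκ.aemeasurable (measurable_of_finite _).aestronglyMeasurable]
      rw [h1, integral_fintype Integrable.of_finite, ← ec.sum_comp, hs]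
      refine Finset.sum_congr rfl fun i _ => ?_
      simp [s, real_inner_smul_left, abs_mul, hw]
    have hclose : ∀ u, |hs s u - h u| ≤ ε N * ‖u‖ := by
      intro u
      have hi : Integrable (fun x => |⟪π N x, u⟫|) ρ :=
        Integrable.mono' (integrable_const (R' * ‖u‖))
          ((π N).measurable.inner measurable_const).abs.aestronglyMeasurable
          ((hπR N).mono fun x hx => by
            rw [Real.norm_eq_abs, abs_abs]
            exact (abs_real_inner_le_norm _ _).trans (mul_le_mul_of_nonneg_right hx (norm_nonneg _)))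
      rw [hhs, hh, hr, ← integral_sub hi (integrable_abs_inner ρ hR u), hε, ← integral_mul_const,
        ← Real.norm_eq_abs]
      refine norm_integral_le_of_norm_le ((hεi N).mul_const _) (Eventually.of_forall fun x => ?_)
      rw [Real.norm_eq_abs]
      refine (abs_abs_sub_abs_le_abs_sub _ _).trans ?_
      rw [← inner_sub_left]
      exact abs_real_inner_le_norm _ _
    have hcmp : ∀ u, (1 - ε N / r) * h u ≤ hs s u ∧ hs s u ≤ (1 + ε N / r) * h u := by
      intro u
      have h1 := abs_le.1 (hclose u)
      have h2 : ε N * ‖u‖ ≤ ε N / r * h u := by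
        rw [div_mul_eq_mul_div, le_div_iff₀ hr0, mul_assoc]
        exact mul_le_mul_of_nonneg_left (by linarith [hrlow u]) (hεnn N)
      constructor <;> nlinarith
    have hdts : ∀ S : Fin n → Fin (Fintype.card P),
        dt (s ∘ S) = (∏ k, w (ec (S k))) * dt (fun k => (ec (S k) : EuclideanSpace ℝ (Fin n))) :=
      fun S => dt_smul _ _
    have hDs : ∑ S, |dt (s ∘ S)| = D N := by
      simp only [hD]
      rw [hmean fun v => |dt v|]
      exact Finset.sum_congr rfl fun S _ => by
        rw [hdts, abs_mul, abs_of_nonneg (Finset.prod_nonneg fun k _ => hw0 _)]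
    have hδ : 0 < 1 - ε N / r := by rw [sub_pos, div_lt_one hr0]; exact hεr
    have hIs : ∑ S, wgt g (hs s) (s ∘ S) ≤ I N + (-(n * Real.log (1 - ε N / r))) * D N := by
      simp only [hI]
      rw [hmean (wgt g h), ← hDs, Finset.mul_sum, ← Finset.sum_add_distrib]
      refine Finset.sum_le_sum fun S _ => ?_
      by_cases hS : dt (s ∘ S) = 0
      · have h0 : wgt g (hs s) (s ∘ S) = 0 := by simp [wgt, hS]
        rw [h0, hS, abs_zero, mul_zero, add_zero]
        rcases mul_eq_zero.1 ((hdts S).symm.trans hS) with hp | hp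
        · simp [hp]
        · simp [wgt, hp]
      have hne := hdts S ▸ hS
      set v := fun k => (ec (S k) : EuclideanSpace ℝ (Fin n))
      have hv : dt v ≠ 0 := right_ne_zero_of_mul hne
      have e1 : wgt g (hs s) (s ∘ S) = |dt (s ∘ S)| * ∑ j, Real.log (g (dual v j) / hs s (dual v j)) := by
        rw [wgt]
        congr 1
        refine Finset.sum_congr rfl fun j _ => ?_
        have hwj : 0 < w (ec (S j)) := lt_of_le_of_ne (hw0 _) fun h0 => hne (by
          rw [Finset.prod_eq_zero (Finset.mem_univ j) h0.symm, zero_mul])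
        have hd := dual_smul (m := fun k => w (ec (S k))) (v := v) hS j
        rw [show dual (s ∘ S) j = (w (ec (S j)))⁻¹ • dual v j from hd,
          gh _ _ (inv_nonneg.2 hwj.le), hs_smul, abs_of_pos (inv_pos.2 hwj),
          mul_div_mul_left _ _ (inv_pos.2 hwj).ne']
      rw [e1, wgt, hdts, abs_mul, abs_of_nonneg (Finset.prod_nonneg fun k _ => hw0 _)]
      calc (∏ k, w (ec (S k))) * |dt v| * ∑ j, Real.log (g (dual v j) / hs s (dual v j))
          ≤ (∏ k, w (ec (S k))) * |dt v|
              * ∑ j, (Real.log (g (dual v j) / h (dual v j)) - Real.log (1 - ε N / r)) := by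
            refine mul_le_mul_of_nonneg_left (Finset.sum_le_sum fun j _ => ?_)
              (mul_nonneg (Finset.prod_nonneg fun k _ => hw0 _) (abs_nonneg _))
            have hbne : dual v j ≠ 0 := fun h0 => by
              have := inner_dual v hv j j
              rw [h0, inner_zero_right, if_pos rfl] at this
              exact zero_ne_one this
            have hhp : 0 < h (dual v j) :=
              lt_of_lt_of_le (mul_pos hr0 (norm_pos_iff.2 hbne)) (hrlow _)
            have hsp : 0 < hs s (dual v j) := lt_of_lt_of_le (mul_pos hδ hhp) (hcmp _).1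
            rw [Real.log_div (gpos _ hbne).ne' hsp.ne', Real.log_div (gpos _ hbne).ne' hhp.ne']
            have := Real.log_le_log (mul_pos hδ hhp) (hcmp (dual v j)).1
            rw [Real.log_mul hδ.ne' hhp.ne'] at this
            linarith
        _ = _ := by
            rw [Finset.sum_sub_distrib, Finset.sum_const, Finset.card_univ, Fintype.card_fin,
              nsmul_eq_mul]
            ring
    have hz : zono s ⊆ (1 + ε N / r) • wset g := by
      intro x hx
      have hp : 0 < 1 + ε N / r := by
        have := div_nonneg (hεnn N) hr0.le; linarith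
      refine (Set.mem_smul_set_iff_inv_smul_mem₀ hp.ne' _ _).2 fun u _ => ?_
      rw [real_inner_smul_left, inv_mul_le_iff₀ hp]
      exact ((hx u).trans (hcmp u).2).trans (mul_le_mul_of_nonneg_left (hrle u) hp.le)
    have hp : 0 ≤ 1 + ε N / r := by
      have := div_nonneg (hεnn N) hr0.le; linarith
    have hbd : Bornology.IsBounded (wset g) := by
      rw [hEq]; exact isBounded_wset ρ hR
    have hvol : 2 ^ n * D N / n ! ≤ (1 + ε N / r) ^ n * volume.real (wset g) := by
      rw [← hDs]
      refine (zono_volume_ge s).trans ((measureReal_mono hz ?_).trans_eq ?_)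
      · exact (hbd.smul₀ _).measure_lt_top.ne
      · rw [measureReal_def, Measure.addHaar_smul, ENNReal.toReal_mul, finrank_euclideanSpace_fin,
          abs_of_nonneg (pow_nonneg hp n), ENNReal.toReal_ofReal (pow_nonneg hp n), measureReal_def]
    have hb := bound _ s (hDs.symm ▸ hDN)
    rw [hDs] at hb
    refine hb.trans (add_le_add (Real.log_le_log (by positivity) hvol) ?_)
    rw [div_le_iff₀ hDN]
    refine hIs.trans (le_of_eq ?_)
    field_simp
    ring
  -- the limit
  have hV : 0 < volume.real (wset g) := by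
    obtain ⟨r', hr', hlow⟩ := exists_lower gc gh gpos
    have hsub : Metric.closedBall (0 : EuclideanSpace ℝ (Fin n)) r' ⊆ wset g := by
      intro x hx u hu
      rw [mem_closedBall_zero_iff] at hx
      have h1 := hlow u
      rw [mem_sphere_zero_iff_norm] at hu
      rw [hu, mul_one] at h1
      have h2 : ⟪x, u⟫ ≤ ‖x‖ := by simpa [hu] using real_inner_le_norm x u
      linarith
    have hbd : Bornology.IsBounded (wset g) := by
      rw [hEq]; exact isBounded_wset ρ hR
    refine lt_of_lt_of_le ?_ (measureReal_mono hsub hbd.measure_lt_top.ne)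
    exact ENNReal.toReal_pos (Metric.measure_closedBall_pos _ _ hr').ne'
      measure_closedBall_lt_top.ne
  have hlimR : Tendsto (fun N => Real.log ((1 + ε N / r) ^ n * volume.real (wset g))
      + (I N / D N - n * Real.log (1 - ε N / r))) atTop (𝓝 (Real.log (volume.real (wset g)))) := by
    have h1 := ((hε0.div_const r).const_add 1).pow n |>.mul_const (volume.real (wset g))
    have h2 := h1.log (by simpa using hV.ne')
    have h3 := ((hε0.div_const r).const_sub 1).log (by simp)
    have h4 := h2.add ((hIlim.div hDlim hspan.ne').sub (h3.const_mul (n : ℝ)))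
    simpa using h4
  have hev : ∀ᶠ N in atTop, Real.log T ≤ Real.log ((1 + ε N / r) ^ n * volume.real (wset g))
      + (I N / D N - n * Real.log (1 - ε N / r)) := by
    filter_upwards [hε0.eventually (Iio_mem_nhds hr0), hDlim.eventually (Ioi_mem_nhds hspan)]
      with N h1 h2 using hstage N h1 h2
  exact (Real.log_le_log_iff hT hV).1 (ge_of_tendsto hlimR hev)

end Vale.Agent.P227
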