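import Vale.Agent.P227.Limit

/-!
The logarithmic Minkowski inequality for zonotopes and the logarithmic Brunn-Minkowski
inequality when the combination is a zonoid.
-/

namespace Vale.Agent.P227

open MeasureTheory Set
open scoped RealInnerProductSpace Nat Pointwise

variable {n : ℕ}

/-- Support function. -/
noncomputable def hb (K : Set (EuclideanSpace ℝ (Fin n))) (u : EuclideanSpace ℝ (Fin n)) : ℝ :=
  sSup ((fun x => ⟪x, u⟫) '' K)

variable {K : Set (EuclideanSpace ℝ (Fin n))} (hK : IsCompact K) (hKi : (interior K).Nonempty)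
  (hKs : ∀ x ∈ K, -x ∈ K)
include hK

theorem inner_le_hb {x : EuclideanSpace ℝ (Fin n)} (hx : x ∈ K) (u : EuclideanSpace ℝ (Fin n)) :
    ⟪x, u⟫ ≤ hb K u :=
  le_csSup (hK.image (by fun_prop)).bddAbove ⟨x, hx, rfl⟩

theorem continuous_hb (hne : K.Nonempty) : Continuous (hb K) := by
  obtain ⟨M, hM⟩ := hK.isBounded.exists_norm_le
  refine (LipschitzWith.of_le_add_mul (M.toNNReal) fun u v => ?_).continuous
  refine csSup_le (hne.image _) ?_
  rintro _ ⟨x, hx, rfl⟩
  have h1 := inner_le_hb hK hx v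
  have h2 := real_inner_le_norm x (u - v)
  have h3 : ‖x‖ * ‖u - v‖ ≤ (M.toNNReal : ℝ) * dist u v := by
    rw [dist_eq_norm, Real.coe_toNNReal']
    exact mul_le_mul_of_nonneg_right ((hM x hx).trans (le_max_left _ _)) (norm_nonneg _)
  rw [inner_sub_right] at h2
  linarith

omit hK in
include hKs in
theorem hb_smul (t : ℝ) (u : EuclideanSpace ℝ (Fin n)) : hb K (t • u) = |t| * hb K u := by
  have e : (fun x => ⟪x, t • u⟫) '' K = |t| • ((fun x => ⟪x, u⟫) '' K) := by
    rw [← Set.image_smul, ← Set.image_comp]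
    rcases le_or_gt 0 t with ht | ht
    · exact image_congr fun x _ => by simp [real_inner_smul_right, abs_of_nonneg ht]
    · ext y
      constructor <;> rintro ⟨x, hx, rfl⟩ <;>
        exact ⟨-x, hKs x hx, by simp [real_inner_smul_right, abs_of_neg ht]⟩
  rw [hb, e, Real.sSup_smul_of_nonneg (abs_nonneg t), hb, smul_eq_mul]

include hKi hKs in
theorem hb_pos {u : EuclideanSpace ℝ (Fin n)} (hu : u ≠ 0) : 0 < hb K u := by
  obtain ⟨x0, hx0⟩ := hKi
  obtain ⟨r, hr, hball⟩ := Metric.isOpen_iff.1 isOpen_interior x0 hx0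
  have hn : 0 < ‖u‖ := norm_pos_iff.2 hu
  have hmem : ∀ c : ℝ, |c| < r → x0 + (c / ‖u‖) • u ∈ K := fun c hc => by
    refine interior_subset (hball ?_)
    rw [Metric.mem_ball, dist_eq_norm, add_sub_cancel_left, norm_smul, Real.norm_eq_abs, abs_div,
      abs_norm, div_mul_cancel₀ _ hn.ne']
    exact hc
  have h1 := inner_le_hb hK (hmem (r / 2) (by rw [abs_of_pos (half_pos hr)]; linarith)) u
  have h2 := inner_le_hb hK (hKs _ (hmem (-(r / 2)) (by rw [abs_neg, abs_of_pos (half_pos hr)]; linarith))) u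
  rw [inner_neg_left, inner_add_left, real_inner_smul_left, real_inner_self_eq_norm_mul_norm,
    ← mul_assoc, div_mul_cancel₀ _ hn.ne'] at h2
  rw [inner_add_left, real_inner_smul_left, real_inner_self_eq_norm_mul_norm,
    ← mul_assoc, div_mul_cancel₀ _ hn.ne'] at h1
  nlinarith

omit hK in
theorem volume_pos (hK : IsCompact K) (hKi : (interior K).Nonempty) : 0 < volume.real K :=
  ENNReal.toReal_pos
    (lt_of_lt_of_le (isOpen_interior.measure_pos volume hKi) (measure_mono interior_subset)).ne'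
    hK.measure_lt_top.ne

include hKi hKs in
/-- The mean bound for one symmetric body. -/
theorem body_bound {m : ℕ} (s : Fin m → EuclideanSpace ℝ (Fin n))
    (hD : 0 < ∑ S : Fin n → Fin m, |dt (s ∘ S)|) :
    Real.log (volume.real K) ≤ Real.log (2 ^ n * (∑ S : Fin n → Fin m, |dt (s ∘ S)|) / n !)
      + (∑ S : Fin n → Fin m, |dt (s ∘ S)|
          * ∑ j, Real.log (hb K (dual (s ∘ S) j) / hs s (dual (s ∘ S) j)))
        / ∑ S : Fin n → Fin m, |dt (s ∘ S)| := by
  have hfac : (0 : ℝ) < n ! := by exact_mod_cast Nat.factorial_pos n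
  have h := finite_main s hK (volume_pos hK hKi) (fun u => 2 * hb K u)
    (fun u y hy y' hy' => by
      have h1 := inner_le_hb hK hy u
      have h2 := inner_le_hb hK (hKs y' hy') u
      rw [inner_neg_left] at h2
      rw [real_inner_comm y u, real_inner_comm y' u]
      linarith)
    (fun t u => by rw [hb_smul hKs]; ring) hD
  set D := ∑ S : Fin n → Fin m, |dt (s ∘ S)|
  have e : ∀ S : Fin n → Fin m,
      |dt (s ∘ S)| * ∑ j, Real.log (2 * hb K (dual (s ∘ S) j) / hs s (dual (s ∘ S) j))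
      = n * Real.log 2 * |dt (s ∘ S)|
        + |dt (s ∘ S)| * ∑ j, Real.log (hb K (dual (s ∘ S) j) / hs s (dual (s ∘ S) j)) := by
    intro S
    by_cases hS : dt (s ∘ S) = 0
    · simp [hS]
    have e1 : ∀ j, Real.log (2 * hb K (dual (s ∘ S) j) / hs s (dual (s ∘ S) j))
        = Real.log 2 + Real.log (hb K (dual (s ∘ S) j) / hs s (dual (s ∘ S) j)) := by
      intro j
      have hb1 := inner_dual (s ∘ S) hS j j
      rw [if_pos rfl, Function.comp_apply] at hb1
      have hne : dual (s ∘ S) j ≠ 0 := fun h0 => by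
        rw [h0, inner_zero_right] at hb1; exact zero_ne_one hb1
      have hsp : 0 < hs s (dual (s ∘ S) j) := by
        refine lt_of_lt_of_le one_pos ?_
        rw [← abs_one (α := ℝ), ← hb1]
        exact Finset.single_le_sum (f := fun i => |⟪s i, dual (s ∘ S) j⟫|)
          (fun i _ => abs_nonneg _) (Finset.mem_univ _)
      rw [mul_div_assoc, Real.log_mul two_ne_zero (div_pos (hb_pos hK hKi hKs hne) hsp).ne']
    simp only [e1, Finset.sum_add_distrib, Finset.sum_const, Finset.card_univ, Fintype.card_fin,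
      nsmul_eq_mul]
    ring
  rw [Finset.sum_congr rfl fun S _ => e S, Finset.sum_add_distrib, ← Finset.mul_sum, add_div,
    mul_div_assoc, div_self hD.ne', mul_one] at h
  have e2 : Real.log (2 ^ n * D / n !) = n * Real.log 2 + Real.log (D / n !) := by
    rw [mul_div_assoc, Real.log_mul (by positivity) (div_pos hD hfac).ne', Real.log_pow]
  rw [e2]
  linarith

include hKi hKs in
/-- The logarithmic Minkowski inequality at a zonotope. -/
theorem log_minkowski {m : ℕ} (s : Fin m → EuclideanSpace ℝ (Fin n))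
    (hD : 0 < ∑ S : Fin n → Fin m, |dt (s ∘ S)|) :
    Real.log (volume.real K) ≤ Real.log (volume.real (zono s))
      + (∑ S : Fin n → Fin m, |dt (s ∘ S)|
          * ∑ j, Real.log (hb K (dual (s ∘ S) j) / hs s (dual (s ∘ S) j)))
        / ∑ S : Fin n → Fin m, |dt (s ∘ S)| :=
  (body_bound hK hKi hKs s hD).trans
    (add_le_add (Real.log_le_log (by positivity) (zono_volume_ge s)) le_rfl)

omit hK in
/-- The logarithmic Brunn-Minkowski inequality when the combination is a zonoid. -/
theorem log_brunn_minkowski {L : Set (EuclideanSpace ℝ (Fin n))} (hK : IsCompact K)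
    (hKi : (interior K).Nonempty) (hKs : ∀ x ∈ K, -x ∈ K) (hL : IsCompact L)
    (hLi : (interior L).Nonempty) (hLs : ∀ x ∈ L, -x ∈ L) {a : ℝ} (ha : a ∈ Icc (0 : ℝ) 1)
    (ρ : Measure (EuclideanSpace ℝ (Fin n))) [IsFiniteMeasure ρ] {R : ℝ}
    (hR : ∀ᵐ s ∂ρ, ‖s‖ ≤ R)
    (hEq : wset (fun u => hb K u ^ (1 - a) * hb L u ^ a) = wset (hr ρ)) :
    volume.real K ^ (1 - a) * volume.real L ^ a
      ≤ volume.real (wset fun u => hb K u ^ (1 - a) * hb L u ^ a) := by
  obtain ⟨ha0, ha1⟩ := ha
  have hKne : K.Nonempty := hKi.mono interior_subset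
  have hLne : L.Nonempty := hLi.mono interior_subset
  have hnn : ∀ {M : Set (EuclideanSpace ℝ (Fin n))}, IsCompact M → (interior M).Nonempty →
      (∀ x ∈ M, -x ∈ M) → ∀ u, 0 ≤ hb M u := by
    intro M hM hMi hMs u
    rcases eq_or_ne u 0 with rfl | hu
    · have := hb_smul hMs 0 (0 : EuclideanSpace ℝ (Fin n))
      simp only [zero_smul, abs_zero, zero_mul] at this
      exact this.ge
    · exact (hb_pos hM hMi hMs hu).le
  have gc : Continuous fun u => hb K u ^ (1 - a) * hb L u ^ a :=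
    ((continuous_hb hK hKne).rpow_const fun u => Or.inr (by linarith)).mul
      ((continuous_hb hL hLne).rpow_const fun u => Or.inr ha0)
  have gh : ∀ (t : ℝ) (u : EuclideanSpace ℝ (Fin n)), 0 ≤ t →
      hb K (t • u) ^ (1 - a) * hb L (t • u) ^ a = t * (hb K u ^ (1 - a) * hb L u ^ a) := by
    intro t u ht
    rw [hb_smul hKs, hb_smul hLs, abs_of_nonneg ht, Real.mul_rpow ht (hnn hK hKi hKs u),
      Real.mul_rpow ht (hnn hL hLi hLs u)]
    have : t ^ (1 - a) * t ^ a = t := by
      rw [← Real.rpow_add' ht (by norm_num : (1 - a) + a ≠ 0)]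
      simp
    linear_combination (hb K u ^ (1 - a) * hb L u ^ a) * this
  have gpos : ∀ u, u ≠ 0 → 0 < hb K u ^ (1 - a) * hb L u ^ a := fun u hu =>
    mul_pos (Real.rpow_pos_of_pos (hb_pos hK hKi hKs hu) _)
      (Real.rpow_pos_of_pos (hb_pos hL hLi hLs hu) _)
  have hvK := volume_pos hK hKi
  have hvL := volume_pos hL hLi
  refine zonoid_bound ρ hR gc gh gpos hEq
    (mul_pos (Real.rpow_pos_of_pos hvK _) (Real.rpow_pos_of_pos hvL _)) fun m s hD => ?_
  rw [Real.log_mul (Real.rpow_pos_of_pos hvK _).ne' (Real.rpow_pos_of_pos hvL _).ne',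
    Real.log_rpow hvK, Real.log_rpow hvL]
  have h1 := mul_le_mul_of_nonneg_left (body_bound hK hKi hKs s hD) (by linarith : (0 : ℝ) ≤ 1 - a)
  have h2 := mul_le_mul_of_nonneg_left (body_bound hL hLi hLs s hD) ha0
  have e : ∀ S : Fin n → Fin m,
      wgt (fun u => hb K u ^ (1 - a) * hb L u ^ a) (hs s) (s ∘ S)
      = (1 - a) * (|dt (s ∘ S)| * ∑ j, Real.log (hb K (dual (s ∘ S) j) / hs s (dual (s ∘ S) j)))
        + a * (|dt (s ∘ S)| * ∑ j, Real.log (hb L (dual (s ∘ S) j) / hs s (dual (s ∘ S) j))) := by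
    intro S
    by_cases hS : dt (s ∘ S) = 0
    · simp [wgt, hS]
    rw [wgt]
    simp only [Finset.mul_sum, ← Finset.sum_add_distrib]
    refine Finset.sum_congr rfl fun j _ => ?_
    have hb1 := inner_dual (s ∘ S) hS j j
    rw [if_pos rfl, Function.comp_apply] at hb1
    have hne : dual (s ∘ S) j ≠ 0 := fun h0 => by
      rw [h0, inner_zero_right] at hb1; exact zero_ne_one hb1
    have hsp : 0 < hs s (dual (s ∘ S) j) := by
      refine lt_of_lt_of_le one_pos ?_
      rw [← abs_one (α := ℝ), ← hb1]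
      exact Finset.single_le_sum (f := fun i => |⟪s i, dual (s ∘ S) j⟫|)
        (fun i _ => abs_nonneg _) (Finset.mem_univ _)
    have pK := hb_pos hK hKi hKs hne
    have pL := hb_pos hL hLi hLs hne
    rw [Real.log_div (gpos _ hne).ne' hsp.ne', Real.log_div pK.ne' hsp.ne',
      Real.log_div pL.ne' hsp.ne', Real.log_mul (Real.rpow_pos_of_pos pK _).ne'
      (Real.rpow_pos_of_pos pL _).ne', Real.log_rpow pK, Real.log_rpow pL]
    ring
  rw [Finset.sum_congr rfl fun S _ => e S, Finset.sum_add_distrib, ← Finset.mul_sum,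
    ← Finset.mul_sum, add_div]
  simp only [mul_div_assoc] at h1 h2 ⊢
  linarith

end Vale.Agent.P227
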