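import Vale.Agent.P227.Dual
import Vale.Agent.P227.Power

/-!
The vertices of a generic hyperplane arrangement and the volume of a zonotope.
-/

namespace Vale.Agent.P227

open MeasureTheory Set
open scoped RealInnerProductSpace Nat

variable {n : ℕ} {ι : Type*} [Fintype ι] [DecidableEq ι] (s : ι → EuclideanSpace ℝ (Fin n))

/-- Index set of a tuple. -/
def img (S : Fin n → ι) : Finset ι := Finset.univ.image S

/-- Vertex of the arrangement `⟪s i, x⟫ = c i` cut out by a tuple. -/
noncomputable def site (c : ι → ℝ) (S : Fin n → ι) : EuclideanSpace ℝ (Fin n) :=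
  ∑ k, c (S k) • dual (s ∘ S) k

/-- The zonotope as a support intersection. -/
def zono : Set (EuclideanSpace ℝ (Fin n)) := {x | ∀ u, ⟪x, u⟫ ≤ ∑ i, |⟪s i, u⟫|}

omit [Fintype ι] [DecidableEq ι] in
theorem inner_site (c : ι → ℝ) {S : Fin n → ι} (hS : dt (s ∘ S) ≠ 0) (k : Fin n) :
    ⟪s (S k), site s c S⟫ = c (S k) := by
  simp only [site, inner_sum, real_inner_smul_right]
  have h := fun l => inner_dual (s ∘ S) hS k l
  simp only [Function.comp_apply] at h
  simp [h]

omit [Fintype ι] in
theorem site_congr (c : ι → ℝ) {S S' : Fin n → ι} (hS : dt (s ∘ S) ≠ 0) (hS' : dt (s ∘ S') ≠ 0)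
    (h : img S = img S') : site s c S = site s c S' := by
  refine sub_eq_zero.1 (eq_zero_of_inner_eq_zero hS' fun k => ?_)
  have hk : S' k ∈ img S := h ▸ Finset.mem_image_of_mem _ (Finset.mem_univ k)
  obtain ⟨l, -, hl⟩ := Finset.mem_image.1 hk
  rw [inner_sub_right, Function.comp_apply, inner_site s c hS' k, ← hl, inner_site s c hS l,
    sub_self]

omit [Fintype ι] [DecidableEq ι] in
theorem injective_of_dt {S : Fin n → ι} (hS : dt (s ∘ S) ≠ 0) : Function.Injective S :=
  fun a b hab => injective_of_dt_ne_zero hS (by simp [hab])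

omit [Fintype ι] in
theorem card_img {S : Fin n → ι} (hS : dt (s ∘ S) ≠ 0) : (img S).card = n := by
  rw [img, Finset.card_image_of_injective _ (injective_of_dt s hS), Finset.card_univ,
    Fintype.card_fin]

/-- Generic offsets separate the vertices. -/
theorem exists_generic : ∃ c : ι → ℝ, ∀ S S' : Fin n → ι, dt (s ∘ S) ≠ 0 → dt (s ∘ S') ≠ 0 →
    img S ≠ img S' → site s c S ≠ site s c S' := by
  classical
  set e := Fintype.equivFin ι
  set pairs : Finset ((Fin n → ι) × (Fin n → ι)) := Finset.univ.filter fun P =>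
    dt (s ∘ P.1) ≠ 0 ∧ dt (s ∘ P.2) ≠ 0 ∧ img P.1 ≠ img P.2 with hpairs
  have hex : ∀ P ∈ pairs, ∃ Q : Polynomial ℝ, Q ≠ 0 ∧ ∀ t : ℝ,
      site s (fun i => t ^ (e i : ℕ)) P.1 = site s (fun i => t ^ (e i : ℕ)) P.2 → Q.eval t = 0 := by
    rintro ⟨S, S'⟩ hP
    simp only [hpairs, Finset.mem_filter, Finset.mem_univ, true_and] at hP
    obtain ⟨hS, hS', hne⟩ := hP
    obtain ⟨i0, hi0, hi0'⟩ : ∃ i, i ∈ img S' ∧ i ∉ img S := by
      by_contra h
      push Not at h
      exact hne (Finset.eq_of_subset_of_card_le (fun i hi => h i hi)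
        (by rw [card_img s hS, card_img s hS'])).symm
    obtain ⟨k0, -, hk0⟩ := Finset.mem_image.1 hi0
    set w := dual (s ∘ S') k0 with hw
    refine ⟨(∑ k, Polynomial.C ⟪dual (s ∘ S') k, w⟫ * Polynomial.X ^ (e (S' k) : ℕ))
        - ∑ k, Polynomial.C ⟪dual (s ∘ S) k, w⟫ * Polynomial.X ^ (e (S k) : ℕ), ?_, ?_⟩
    · intro hzero
      have hc := congrArg (fun Q : Polynomial ℝ => Q.coeff (e i0 : ℕ)) hzero
      simp only [Polynomial.coeff_sub, Polynomial.finsetSum_coeff, Polynomial.coeff_C_mul_X_pow,
        Polynomial.coeff_zero] at hc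
      have h1 : ∀ k, ((e i0 : ℕ) = (e (S' k) : ℕ)) ↔ k = k0 := by
        intro k
        rw [← Fin.ext_iff, e.injective.eq_iff, ← hk0, (injective_of_dt s hS').eq_iff, eq_comm]
      have h2 : ∀ k, ¬ ((e i0 : ℕ) = (e (S k) : ℕ)) := by
        intro k
        rw [← Fin.ext_iff, e.injective.eq_iff]
        exact fun hk => hi0' (hk ▸ Finset.mem_image_of_mem _ (Finset.mem_univ k))
      simp only [h1, h2, if_false, Finset.sum_const_zero, sub_zero, Finset.sum_ite_eq',
        Finset.mem_univ, if_true, ← hw] at hc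
      have hne0 := inner_dual (s ∘ S') hS' k0 k0
      rw [← hw, inner_self_eq_zero.1 hc] at hne0
      simp at hne0
    · intro t ht
      have h := congrArg (fun z => ⟪z, w⟫) ht
      simp only [site, sum_inner, real_inner_smul_left] at h
      simp only [Polynomial.eval_sub, Polynomial.eval_finsetSum, Polynomial.eval_mul,
        Polynomial.eval_C, Polynomial.eval_pow, Polynomial.eval_X]
      rw [sub_eq_zero]
      simp only [mul_comm _ (t ^ _)]
      exact h.symm
  choose! Q hQ0 hQ using hex
  have hprod : (∏ P ∈ pairs, Q P) ≠ 0 := Finset.prod_ne_zero_iff.2 hQ0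
  obtain ⟨t, ht⟩ : ∃ t : ℝ, (∏ P ∈ pairs, Q P).eval t ≠ 0 := by
    by_contra h
    push Not at h
    exact hprod (Polynomial.funext fun t => by simp [h t])
  refine ⟨fun i => t ^ (e i : ℕ), fun S S' hS hS' hne heq => ?_⟩
  rw [Polynomial.eval_prod, Finset.prod_ne_zero_iff] at ht
  exact ht (S, S') (by simp [hpairs, hS, hS', hne]) (hQ (S, S') (by simp [hpairs, hS, hS', hne]) t heq)

/-- Index sets of the nondegenerate tuples. -/
noncomputable def bases : Finset (Finset ι) := by
  classical exact (Finset.univ.filter fun S => dt (s ∘ S) ≠ 0).image img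

theorem mem_bases {A : Finset ι} : A ∈ bases s ↔ ∃ S, dt (s ∘ S) ≠ 0 ∧ img S = A := by
  simp [bases]

/-- A representing tuple. -/
noncomputable def rep (A : bases s) : Fin n → ι := Classical.choose ((mem_bases s).1 A.2)

theorem rep_dt (A : bases s) : dt (s ∘ rep s A) ≠ 0 :=
  (Classical.choose_spec ((mem_bases s).1 A.2)).1

theorem img_rep (A : bases s) : img (rep s A) = A :=
  (Classical.choose_spec ((mem_bases s).1 A.2)).2

omit [Fintype ι] in
/-- Tuples with the same index set as a nondegenerate one are its permutations. -/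
theorem exists_perm {S S' : Fin n → ι} (hS : dt (s ∘ S) ≠ 0) (h : img S' = img S) :
    ∃ σ : Equiv.Perm (Fin n), S ∘ σ = S' := by
  have hS' : Function.Injective S' := by
    have : Set.InjOn S' (Finset.univ : Finset (Fin n)) := by
      rw [← Finset.card_image_iff]
      show (img S').card = _
      rw [h, card_img s hS, Finset.card_univ, Fintype.card_fin]
    intro a b hab
    exact this (Finset.mem_univ a) (Finset.mem_univ b) hab
  have hmem : ∀ k, ∃ l, S l = S' k := fun k => by
    have hk : S' k ∈ img S := h ▸ Finset.mem_image_of_mem _ (Finset.mem_univ k)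
    simpa [img] using hk
  choose f hf using hmem
  have hinj : Function.Injective f := fun a b hab => hS' (by rw [← hf a, ← hf b, hab])
  exact ⟨Equiv.ofBijective f hinj.bijective_of_finite, funext hf⟩

theorem abs_dt_rep {S : Fin n → ι} (A : bases s) (h : img S = A) :
    |dt (s ∘ S)| = |dt (s ∘ rep s A)| := by
  obtain ⟨σ, rfl⟩ := exists_perm s (rep_dt s A) (h.trans (img_rep s A).symm)
  exact dt_perm (s ∘ rep s A) σ

/-- The sum over tuples, grouped by index sets. -/
theorem sum_abs_dt : ∑ S : Fin n → ι, |dt (s ∘ S)| = ∑ A : bases s, n ! * |dt (s ∘ rep s A)| := by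
  classical
  have h1 : ∑ S : Fin n → ι, |dt (s ∘ S)|
      = ∑ S ∈ Finset.univ.filter (fun S => img S ∈ bases s), |dt (s ∘ S)| := by
    refine (Finset.sum_filter_of_ne fun S _ hS => ?_).symm
    exact (mem_bases s).2 ⟨S, abs_ne_zero.1 hS, rfl⟩
  rw [h1, ← Finset.sum_fiberwise_of_maps_to (t := bases s) (g := img)
    (fun S hS => (Finset.mem_filter.1 hS).2), ← Finset.sum_coe_sort (bases s)]
  refine Finset.sum_congr rfl fun A _ => ?_
  rw [Finset.sum_congr rfl fun S hS => abs_dt_rep s A (Finset.mem_filter.1 hS).2,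
    Finset.sum_const, nsmul_eq_mul]
  congr 2
  have hset : (Finset.univ.filter (fun S => img S ∈ bases s)).filter (fun S => img S = A)
      = (Finset.univ : Finset (Equiv.Perm (Fin n))).image (fun σ : Equiv.Perm (Fin n) => rep s A ∘ ⇑σ) := by
    ext S
    simp only [Finset.mem_filter, Finset.mem_univ, true_and, Finset.mem_image]
    constructor
    · exact fun h => exists_perm s (rep_dt s A) (h.2.trans (img_rep s A).symm)
    · rintro ⟨σ, rfl⟩
      have : img (rep s A ∘ σ) = A := by
        rw [img, ← Finset.image_image]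
        simp [Finset.image_univ_equiv, ← img_rep s A, img]
      exact ⟨this.symm ▸ A.2, this⟩
  rw [hset, Finset.card_image_of_injective _ fun (σ τ : Equiv.Perm (Fin n))
    (h : rep s A ∘ ⇑σ = rep s A ∘ ⇑τ) => Equiv.ext fun k =>
      injective_of_dt s (rep_dt s A) (congrFun h k), Finset.card_univ, Fintype.card_perm,
    Fintype.card_fin]

omit [DecidableEq ι] in
theorem isCompact_zono : IsCompact (zono s) := by
  refine Metric.isCompact_of_isClosed_isBounded ?_ ?_
  · simp only [zono, Set.ofPred_forall]
    exact isClosed_iInter fun u => isClosed_le (by fun_prop) continuous_const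
  · refine (Metric.isBounded_iff_subset_closedBall 0).2 ⟨∑ i, ‖s i‖, fun x hx => ?_⟩
    rw [Metric.mem_closedBall, dist_zero_right]
    have h1 : ⟪x, x⟫ ≤ (∑ i, ‖s i‖) * ‖x‖ := by
      refine (hx x).trans ?_
      rw [Finset.sum_mul]
      exact Finset.sum_le_sum fun i _ => abs_real_inner_le_norm _ _
    rw [real_inner_self_eq_norm_mul_norm] at h1
    rcases (norm_nonneg x).eq_or_lt with h | h
    · rw [← h]; exact Finset.sum_nonneg fun i _ => norm_nonneg _
    · exact le_of_mul_le_mul_right h1 h

/-- A zonotope contains translates of all its parallelepipeds with disjoint interiors. -/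
theorem zono_volume_ge :
    2 ^ n * (∑ S : Fin n → ι, |dt (s ∘ S)|) / n ! ≤ volume.real (zono s) := by
  classical
  obtain ⟨c, hc⟩ := exists_generic s
  set p : bases s → EuclideanSpace ℝ (Fin n) := fun A => site s c (rep s A)
  set pot : EuclideanSpace ℝ (Fin n) → ℝ := fun x => ∑ i, |⟪s i, x⟫ - c i| with hpot
  set off : bases s → EuclideanSpace ℝ (Fin n) := fun A =>
    ∑ i ∈ Finset.univ \ (A : Finset ι), Real.sign (⟪s i, p A⟫ - c i) • s i
  set piece : bases s → Set (EuclideanSpace ℝ (Fin n)) := fun A =>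
    (fun z => off A + z) '' (lin (s ∘ rep s A) '' box (fun _ => -1) fun _ => 1)
  have hrep : ∀ A : bases s, ∀ y ∈ piece A, ∃ α : ι → ℝ, (∀ i, |α i| ≤ 1) ∧
      y = ∑ i, α i • s i ∧ ∑ i, α i * (⟪s i, p A⟫ - c i) = pot (p A) := by
    rintro A y ⟨-, ⟨z, hz, rfl⟩, rfl⟩
    have hinj := injective_of_dt s (rep_dt s A)
    refine ⟨fun i => if h : ∃ k, rep s A k = i then z (Classical.choose h)
      else Real.sign (⟪s i, p A⟫ - c i), fun i => ?_, ?_, ?_⟩
    · dsimp only
      split_ifs with h
      · exact abs_le.2 (hz _)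
      · rcases Real.sign_apply_eq (⟪s i, p A⟫ - c i) with h' | h' | h' <;> simp [h']
    · rw [← Finset.sum_sdiff (Finset.subset_univ (A : Finset ι))]
      dsimp only [off]
      congr 1
      · refine Finset.sum_congr rfl fun i hi => ?_
        rw [dif_neg]
        rintro ⟨k, rfl⟩
        exact (Finset.mem_sdiff.1 hi).2 (img_rep s A ▸ Finset.mem_image_of_mem _ (Finset.mem_univ k))
      · rw [← img_rep s A, img, Finset.sum_image fun a _ b _ h => hinj h, lin_apply]
        refine Finset.sum_congr rfl fun k _ => ?_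
        rw [dif_pos ⟨k, rfl⟩, hinj (Classical.choose_spec (p := fun l => rep s A l = rep s A k) ⟨k, rfl⟩)]
        rfl
    · refine Finset.sum_congr rfl fun i _ => ?_
      dsimp only
      split_ifs with h
      · obtain ⟨k, rfl⟩ := h
        rw [inner_site s c (rep_dt s A) k, sub_self, mul_zero, abs_zero]
      · rcases lt_trichotomy (⟪s i, p A⟫ - c i) 0 with h' | h' | h'
        · rw [Real.sign_of_neg h', abs_of_neg h']; ring
        · simp [h']
        · rw [Real.sign_of_pos h', abs_of_pos h']; ring
  have hsub : ∀ A, piece A ⊆ zono s := by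
    intro A y hy u
    obtain ⟨α, hα, rfl, -⟩ := hrep A y hy
    rw [sum_inner]
    refine Finset.sum_le_sum fun i _ => ?_
    rw [real_inner_smul_left]
    exact (le_abs_self _).trans (by rw [abs_mul]; exact mul_le_of_le_one_left (abs_nonneg _) (hα i))
  have hgrad : ∀ A, ∀ y ∈ piece A, ∀ x, pot (p A) + ⟪y, x - p A⟫ ≤ pot x := by
    intro A y hy x
    obtain ⟨α, hα, rfl, he⟩ := hrep A y hy
    rw [← he, sum_inner, ← Finset.sum_add_distrib]
    refine Finset.sum_le_sum fun i _ => ?_
    rw [real_inner_smul_left, inner_sub_right,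
      show α i * (⟪s i, p A⟫ - c i) + α i * (⟪s i, x⟫ - ⟪s i, p A⟫) = α i * (⟪s i, x⟫ - c i) by ring]
    exact (le_abs_self _).trans (by rw [abs_mul]; exact mul_le_of_le_one_left (abs_nonneg _) (hα i))
  have hp : Function.Injective p := fun A B hAB => by
    by_contra hne
    exact hc _ _ (rep_dt s A) (rep_dt s B)
      (by rw [img_rep, img_rep]; exact fun h => hne (Subtype.ext h)) hAB
  have hpc : ∀ A, IsCompact (piece A) := fun A =>
    (isCompact_lin_box _ _ _).image (continuous_const.add continuous_id)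
  have hdisj : Pairwise fun A B => AEDisjoint volume (piece A) (piece B) := by
    intro A B hAB
    refine measure_mono_null ?_ (show volume
      {y : EuclideanSpace ℝ (Fin n) | ⟪p B - p A, y⟫ = pot (p B) - pot (p A)} = 0 from ?_)
    · rintro y ⟨hA, hB⟩
      have h1 := hgrad A y hA (p B)
      have h2 := hgrad B y hB (p A)
      rw [inner_sub_right] at h1 h2
      simp only [mem_ofPred_eq]
      rw [inner_sub_left, real_inner_comm y, real_inner_comm y]
      linarith
    · have hne : p B - p A ≠ 0 := sub_ne_zero.2 (hp.ne hAB.symm)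
      exact hyperplane_null hne _
  have hvol : ∀ A : bases s, volume.real (piece A) = 2 ^ n * |dt (s ∘ rep s A)| := by
    intro A
    have : volume (piece A) = volume (lin (s ∘ rep s A) '' box (fun _ => -1) fun _ => 1) := by
      simp only [piece, Set.image_add_left, measure_preimage_add]
    rw [measureReal_def, this, ← measureReal_def, volume_lin_box _ _ _ (fun _ => by norm_num)]
    norm_num [mul_comm]
  calc 2 ^ n * (∑ S : Fin n → ι, |dt (s ∘ S)|) / n ! = ∑ A : bases s, volume.real (piece A) := by
        rw [sum_abs_dt, Finset.mul_sum, Finset.sum_div]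
        refine Finset.sum_congr rfl fun A _ => ?_
        rw [hvol]
        field_simp
    _ = volume.real (⋃ A, piece A) := by
        simp only [measureReal_def]
        rw [measure_iUnion₀ hdisj (fun A => (hpc A).measurableSet.nullMeasurableSet), tsum_fintype,
          ENNReal.toReal_sum fun A _ => (hpc A).measure_lt_top.ne]
    _ ≤ volume.real (zono s) :=
        measureReal_mono (iUnion_subset hsub) (isCompact_zono s).measure_lt_top.ne

end Vale.Agent.P227
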