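import Vale.Agent.P227.Ineq
import Vale.Agent.P227.Contact

/-!
From zonotopes to zonoids: a volume bound for any body majorised on every zonotope.
-/

namespace Vale.Agent.P227

open MeasureTheory Set Filter
open scoped RealInnerProductSpace Nat Topology

variable {n : ℕ}

/-- Support function of a zonoid. -/
noncomputable def hr (ρ : Measure (EuclideanSpace ℝ (Fin n))) (u : EuclideanSpace ℝ (Fin n)) : ℝ :=
  ∫ s, |⟪s, u⟫| ∂ρ

/-- The Wulff set of a function on the unit sphere. -/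
def wset (f : EuclideanSpace ℝ (Fin n) → ℝ) : Set (EuclideanSpace ℝ (Fin n)) :=
  {x | ∀ u ∈ Metric.sphere (0 : EuclideanSpace ℝ (Fin n)) 1, ⟪x, u⟫ ≤ f u}

theorem wset_all {f : EuclideanSpace ℝ (Fin n) → ℝ}
    (fh : ∀ (t : ℝ) u, 0 ≤ t → f (t • u) = t * f u) {x : EuclideanSpace ℝ (Fin n)}
    (hx : x ∈ wset f) (u : EuclideanSpace ℝ (Fin n)) : ⟪x, u⟫ ≤ f u := by
  rcases eq_or_ne u 0 with rfl | hu
  · have := fh 0 0 le_rfl
    rw [zero_smul, zero_mul] at this
    simp [this]
  · have hn : 0 < ‖u‖ := norm_pos_iff.2 hu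
    have h1 := hx (‖u‖⁻¹ • u) (by simp [norm_smul, hn.ne'])
    rw [real_inner_smul_right, fh _ _ (inv_nonneg.2 hn.le)] at h1
    exact le_of_mul_le_mul_left h1 (inv_pos.2 hn)

variable (ρ : Measure (EuclideanSpace ℝ (Fin n))) [IsFiniteMeasure ρ]

omit [IsFiniteMeasure ρ] in
theorem hr_smul (t : ℝ) (u : EuclideanSpace ℝ (Fin n)) : hr ρ (t • u) = |t| * hr ρ u := by
  simp [hr, real_inner_smul_right, abs_mul, integral_const_mul]

variable {R : ℝ} (hR : ∀ᵐ s ∂ρ, ‖s‖ ≤ R)
include hR

theorem integrable_abs_inner (u : EuclideanSpace ℝ (Fin n)) :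
    Integrable (fun s => |⟪s, u⟫|) ρ := by
  refine Integrable.mono' (integrable_const (R * ‖u‖))
    (Continuous.aestronglyMeasurable (by fun_prop)) (hR.mono fun s hs => ?_)
  rw [Real.norm_eq_abs, abs_abs]
  exact (abs_real_inner_le_norm _ _).trans (mul_le_mul_of_nonneg_right hs (norm_nonneg _))

/-- The centre of the face with normal `b`. -/
theorem exists_face (b : EuclideanSpace ℝ (Fin n)) : ∃ y : EuclideanSpace ℝ (Fin n),
    (∀ u, ⟪y, u⟫ = ∫ s, Real.sign ⟪s, b⟫ * ⟪s, u⟫ ∂ρ) ∧ ⟪y, b⟫ = hr ρ b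
      ∧ (∀ u, ⟪y, u⟫ ≤ hr ρ u) := by
  have hm : Measurable fun s : EuclideanSpace ℝ (Fin n) => Real.sign ⟪s, b⟫ :=
    (Measurable.ite measurableSet_Iio measurable_const
      (Measurable.ite measurableSet_Ioi measurable_const measurable_const)).comp
      (Continuous.measurable (by fun_prop))
  have hs1 : ∀ a : ℝ, |Real.sign a| ≤ 1 := fun a => by
    rcases Real.sign_apply_eq a with h | h | h <;> simp [h]
  have hint : Integrable (fun s => Real.sign ⟪s, b⟫ • s) ρ := by
    refine Integrable.mono' (integrable_const R) (hm.smul measurable_id).aestronglyMeasurable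
      (hR.mono fun s hs => ?_)
    rw [norm_smul, Real.norm_eq_abs]
    exact (mul_le_of_le_one_left (norm_nonneg _) (hs1 _)).trans hs
  have hy : ∀ u, ⟪∫ s, Real.sign ⟪s, b⟫ • s ∂ρ, u⟫ = ∫ s, Real.sign ⟪s, b⟫ * ⟪s, u⟫ ∂ρ := by
    intro u
    rw [real_inner_comm, ← integral_inner hint]
    exact integral_congr_ae (Eventually.of_forall fun s => by
      simp [real_inner_smul_right, real_inner_comm u])
  refine ⟨_, hy, ?_, fun u => ?_⟩
  · rw [hy]
    exact integral_congr_ae (Eventually.of_forall fun s => by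
      dsimp only
      rcases lt_trichotomy ⟪s, b⟫ 0 with h | h | h
      · rw [Real.sign_of_neg h, abs_of_neg h]; ring
      · simp [h]
      · rw [Real.sign_of_pos h, abs_of_pos h]; ring)
  · rw [hy]
    refine integral_mono ?_ (integrable_abs_inner ρ hR u) fun s => ?_
    · refine Integrable.mono' (integrable_abs_inner ρ hR u)
        (hm.mul (Continuous.measurable (by fun_prop))).aestronglyMeasurable
        (Eventually.of_forall fun s => ?_)
      rw [Real.norm_eq_abs, abs_mul]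
      exact mul_le_of_le_one_left (abs_nonneg _) (hs1 _)
    · refine (le_abs_self _).trans ?_
      rw [abs_mul]
      exact mul_le_of_le_one_left (abs_nonneg _) (hs1 _)

variable {g : EuclideanSpace ℝ (Fin n) → ℝ} (gc : Continuous g)
  (gh : ∀ (t : ℝ) u, 0 ≤ t → g (t • u) = t * g u) (gpos : ∀ u, u ≠ 0 → 0 < g u)
  (hEq : wset g = wset (hr ρ))
include gc gh gpos hEq

omit hR hEq in
theorem exists_lower : ∃ r, 0 < r ∧ ∀ u, r * ‖u‖ ≤ g u := by
  have key : ∃ r, 0 < r ∧ ∀ u ∈ Metric.sphere (0 : EuclideanSpace ℝ (Fin n)) 1, r ≤ g u := by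
    rcases (Metric.sphere (0 : EuclideanSpace ℝ (Fin n)) 1).eq_empty_or_nonempty with h | h
    · exact ⟨1, one_pos, by simp [h]⟩
    · obtain ⟨u0, hu0, hmin⟩ := (isCompact_sphere _ _).exists_isMinOn h gc.continuousOn
      exact ⟨g u0, gpos u0 (by rintro rfl; simp at hu0), fun u hu => hmin hu⟩
  obtain ⟨r, hr0, hr⟩ := key
  refine ⟨r, hr0, fun u => ?_⟩
  rcases eq_or_ne u 0 with rfl | hu
  · have := gh 0 0 le_rfl
    rw [zero_smul, zero_mul] at this
    simp [this]
  · have hn : 0 < ‖u‖ := norm_pos_iff.2 hu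
    have h1 := hr (‖u‖⁻¹ • u) (by simp [norm_smul, hn.ne'])
    rw [gh _ _ (inv_nonneg.2 hn.le), ← div_eq_inv_mul, le_div_iff₀ hn] at h1
    exact h1

omit gc gpos in
theorem hr_le (u : EuclideanSpace ℝ (Fin n)) : hr ρ u ≤ g u := by
  obtain ⟨y, -, hyu, hy⟩ := exists_face ρ hR u
  rw [← hyu]
  exact wset_all gh (hEq.symm ▸ fun v _ => hy v : y ∈ wset g) u

omit hR [IsFiniteMeasure ρ] in
theorem exists_hr_lower : ∃ r, 0 < r ∧ ∀ u, r * ‖u‖ ≤ hr ρ u := by
  obtain ⟨r, hr0, hr'⟩ := exists_lower gc gh gpos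
  refine ⟨r, hr0, fun u => ?_⟩
  rcases eq_or_ne u 0 with rfl | hu
  · simp [hr]
  have hn : 0 < ‖u‖ := norm_pos_iff.2 hu
  have hmem : (r / ‖u‖) • u ∈ wset g := by
    intro v hv
    rw [mem_sphere_zero_iff_norm] at hv
    have h1 : |⟪u, v⟫| ≤ ‖u‖ := by simpa [hv] using abs_real_inner_le_norm u v
    have h2 := hr' v
    rw [hv, mul_one] at h2
    rw [real_inner_smul_left, div_mul_eq_mul_div, div_le_iff₀ hn]
    nlinarith [(abs_le.1 h1).2, mul_le_mul_of_nonneg_right h2 hn.le]
  rw [hEq] at hmem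
  have h3 := wset_all (fun t u ht => by rw [hr_smul, abs_of_nonneg ht]) hmem u
  rwa [real_inner_smul_left, real_inner_self_eq_norm_mul_norm, ← mul_assoc,
    div_mul_cancel₀ _ hn.ne'] at h3

omit gc gh gpos hEq in
theorem isBounded_wset : Bornology.IsBounded (wset (hr ρ)) := by
  refine (Metric.isBounded_iff_subset_closedBall 0).2 ⟨max 0 (∫ _, R ∂ρ), fun x hx => ?_⟩
  rw [Metric.mem_closedBall, dist_zero_right]
  rcases eq_or_ne x 0 with rfl | hx0
  · simp
  have hn : 0 < ‖x‖ := norm_pos_iff.2 hx0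
  refine le_max_of_le_right ?_
  have h1 := wset_all (fun t u ht => by rw [hr_smul, abs_of_nonneg ht]) hx x
  have h2 : hr ρ x ≤ ‖x‖ * ∫ _, R ∂ρ := by
    rw [← integral_const_mul]
    refine integral_mono_ae (integrable_abs_inner ρ hR x) (integrable_const _) (hR.mono fun s hs => ?_)
    calc |⟪s, x⟫| ≤ ‖s‖ * ‖x‖ := abs_real_inner_le_norm _ _
      _ ≤ ‖x‖ * R := by rw [mul_comm]; exact mul_le_mul_of_nonneg_left hs hn.le
  rw [real_inner_self_eq_norm_mul_norm] at h1
  exact le_of_mul_le_mul_left (h1.trans h2) hn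

/-- At almost every tuple the bound is attained. -/
theorem ae_contact : ∀ᵐ v ∂(Measure.pi fun _ : Fin n => ρ), dt v ≠ 0 →
    ∀ j, g (dual v j) = hr ρ (dual v j) := by
  filter_upwards [ae_tight ρ] with v hv hdt j
  set b := dual v j with hb
  obtain ⟨r, hr0, hrlow⟩ := exists_hr_lower ρ gc gh gpos hEq
  have hb1 := inner_dual v hdt j j
  rw [if_pos rfl, ← hb] at hb1
  have hbne : b ≠ 0 := fun h => by rw [h, inner_zero_right] at hb1; exact one_ne_zero hb1.symm
  have hrb : 0 < hr ρ b := lt_of_lt_of_le (mul_pos hr0 (norm_pos_iff.2 hbne)) (hrlow b)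
  obtain ⟨y, hyi, hyb, hy⟩ := exists_face ρ hR b
  have hle : ∀ u, ⟪y, u⟫ ≤ g u := fun u => (hy u).trans (hr_le ρ hR gh hEq u)
  -- a unit vector at which `y` touches the Wulff body
  have hsne : (Metric.sphere (0 : EuclideanSpace ℝ (Fin n)) 1).Nonempty :=
    ⟨‖b‖⁻¹ • b, by simp [norm_smul, hbne]⟩
  obtain ⟨u, hu, hmin⟩ := (isCompact_sphere _ _).exists_isMinOn hsne
    (f := fun u => g u - ⟪y, u⟫) (by fun_prop : Continuous fun u => g u - ⟪y, u⟫).continuousOn
  have hgy : g u = ⟪y, u⟫ := by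
    by_contra hne
    have hδ : 0 < g u - ⟪y, u⟫ := sub_pos.2 (lt_of_le_of_ne (hle u) (Ne.symm hne))
    set δ := g u - ⟪y, u⟫ with hδdef
    set ε := δ / (‖y‖ + 1) with hε
    have hε0 : 0 < ε := div_pos hδ (by positivity)
    have hmem : (1 + ε) • y ∈ wset g := by
      intro w hw
      have h1 : δ ≤ g w - ⟪y, w⟫ := hmin hw
      rw [mem_sphere_zero_iff_norm] at hw
      have h2 : |⟪y, w⟫| ≤ ‖y‖ := by simpa [hw] using abs_real_inner_le_norm y w
      have h3 : ε * (‖y‖ + 1) = δ := div_mul_cancel₀ _ (by positivity)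
      rw [real_inner_smul_left]
      nlinarith [(abs_le.1 h2).2]
    rw [hEq] at hmem
    have h4 := wset_all (fun t u ht => by rw [hr_smul, abs_of_nonneg ht]) hmem b
    rw [real_inner_smul_left, hyb] at h4
    nlinarith
  have hru : hr ρ u = ⟪y, u⟫ :=
    le_antisymm (by rw [← hgy]; exact hr_le ρ hR gh hEq u) (hy u)
  -- equality almost everywhere
  have hae : ∀ᵐ t ∂ρ, |⟪t, u⟫| = Real.sign ⟪t, b⟫ * ⟪t, u⟫ := by
    have hm : Measurable fun t : EuclideanSpace ℝ (Fin n) => Real.sign ⟪t, b⟫ * ⟪t, u⟫ :=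
      ((Measurable.ite measurableSet_Iio measurable_const
        (Measurable.ite measurableSet_Ioi measurable_const measurable_const)).comp
        (Continuous.measurable (by fun_prop))).mul (Continuous.measurable (by fun_prop))
    have habs : ∀ t, |Real.sign ⟪t, b⟫ * ⟪t, u⟫| ≤ |⟪t, u⟫| := fun t => by
      rw [abs_mul]
      refine mul_le_of_le_one_left (abs_nonneg _) ?_
      rcases Real.sign_apply_eq ⟪t, b⟫ with h | h | h <;> simp [h]
    have hi : Integrable (fun t => Real.sign ⟪t, b⟫ * ⟪t, u⟫) ρ :=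
      Integrable.mono' (integrable_abs_inner ρ hR u) hm.aestronglyMeasurable
        (Eventually.of_forall fun t => habs t)
    have h0 : ∫ t, (|⟪t, u⟫| - Real.sign ⟪t, b⟫ * ⟪t, u⟫) ∂ρ = 0 := by
      rw [integral_sub (integrable_abs_inner ρ hR u) hi, ← hyi, ← hru, hr, sub_self]
    have h5 := (integral_eq_zero_iff_of_nonneg
      (fun t => sub_nonneg.2 ((le_abs_self _).trans (habs t)))
      ((integrable_abs_inner ρ hR u).sub hi)).1 h0
    filter_upwards [h5] with t ht
    exact sub_eq_zero.1 ht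
  have hlz := hv j hdt u hae
  have hub : u = ⟪v j, u⟫ • b := by
    refine sub_eq_zero.1 (eq_zero_of_inner_eq_zero hdt fun k => ?_)
    rw [inner_sub_right, real_inner_smul_right, hb, inner_dual v hdt]
    by_cases hk : k = j
    · subst hk; simp
    · rw [if_neg hk, hlz k hk]; simp
  have hcpos : 0 < ⟪v j, u⟫ := by
    have h6 : 0 < g u := gpos u (by rintro rfl; simp at hu)
    rw [hgy, hub, real_inner_smul_right, hyb] at h6
    exact pos_of_mul_pos_left h6 hrb.le
  rw [hub, gh _ _ hcpos.le, real_inner_smul_right, hyb] at hgy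
  exact mul_left_cancel₀ hcpos.ne' hgy

omit gc gh gpos hEq in
theorem span_pos (hsp : ∀ u, u ≠ 0 → 0 < hr ρ u) :
    0 < ∫ v, |dt v| ∂(Measure.pi fun _ : Fin n => ρ) := by
  classical
  set supp : Set (EuclideanSpace ℝ (Fin n)) := {s | ∀ U, IsOpen U → s ∈ U → 0 < ρ U}
  have hsupp : ρ suppᶜ = 0 := by
    set bs := TopologicalSpace.countableBasis (EuclideanSpace ℝ (Fin n))
    refine measure_mono_null (t := ⋃ B ∈ {B ∈ bs | ρ B = 0}, B) ?_
      ((measure_biUnion_null_iff ((TopologicalSpace.countable_countableBasis _).mono fun B hB => hB.1)).2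
        fun B hB => hB.2)
    intro s hs
    simp only [mem_compl_iff, supp, mem_ofPred_eq, not_forall, not_lt, nonpos_iff_eq_zero] at hs
    obtain ⟨U, hU, hsU, h0⟩ := hs
    obtain ⟨B, hB, hsB, hBU⟩ :=
      (TopologicalSpace.isBasis_countableBasis _).exists_subset_of_mem_open hsU hU
    simp only [mem_iUnion]
    exact ⟨B, ⟨hB, measure_mono_null hBU h0⟩, hsB⟩
  have htop : Submodule.span ℝ supp = ⊤ := by
    refine Submodule.orthogonal_eq_bot_iff.1 ((Submodule.eq_bot_iff _).2 fun u hu => ?_)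
    by_contra hne
    refine (hsp u hne).ne' ?_
    refine integral_eq_zero_of_ae ?_
    filter_upwards [(mem_ae_iff.2 hsupp : supp ∈ ae ρ)] with s hs
    rw [Submodule.mem_orthogonal] at hu
    simp [hu s (Submodule.subset_span hs)]
  obtain ⟨bset, hbsub, hbspan, hbli⟩ := exists_linearIndependent ℝ supp
  rw [htop] at hbspan
  set B := Module.Basis.mk hbli (by rw [Subtype.range_coe, hbspan])
  have hfin : Fintype bset := FiniteDimensional.fintypeBasisIndex B
  have hcard : Fintype.card bset = n := by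
    rw [← Module.finrank_eq_card_basis B, finrank_euclideanSpace_fin]
  set e := (Fintype.equivFinOfCardEq hcard).symm
  set w : Fin n → EuclideanSpace ℝ (Fin n) := fun i => (e i : EuclideanSpace ℝ (Fin n)) with hw
  have hwdt : dt w ≠ 0 := by
    intro h0
    obtain ⟨c, hc, hcm⟩ := Matrix.exists_vecMul_eq_zero_iff.2 h0
    have hli : LinearIndependent ℝ w := hbli.comp e e.injective
    refine hc (funext fun i => Fintype.linearIndependent_iff.1 hli c ?_ i)
    ext k
    simpa [Matrix.vecMul, dotProduct] using congrFun hcm k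
  have hopen : IsOpen {v : Fin n → EuclideanSpace ℝ (Fin n) | dt v ≠ 0} :=
    isOpen_ne_fun continuous_dt continuous_const
  obtain ⟨u, hu, hsub⟩ := isOpen_pi_iff'.1 hopen w hwdt
  have hpos : 0 < (Measure.pi fun _ : Fin n => ρ) (Set.univ.pi u) := by
    rw [Measure.pi_pi]
    refine pos_iff_ne_zero.2 (Finset.prod_ne_zero_iff.2 fun i _ => ?_)
    exact (hbsub (e i).2 (u i) (hu i).1 (hu i).2).ne'
  have hintd : Integrable (fun v => |dt v|) (Measure.pi fun _ : Fin n => ρ) := by
    obtain ⟨M, hM⟩ := ((isCompact_univ_pi fun _ : Fin n =>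
      isCompact_closedBall (0 : EuclideanSpace ℝ (Fin n)) R).image
        continuous_dt.abs).bddAbove
    refine Integrable.mono' (integrable_const M) continuous_dt.abs.aestronglyMeasurable ?_
    have hall : ∀ᵐ v ∂(Measure.pi fun _ : Fin n => ρ), ∀ i, ‖v i‖ ≤ R :=
      ae_all_iff.2 fun i => (Measure.tendsto_eval_ae_ae (μ := fun _ : Fin n => ρ) (i := i)).eventually hR
    filter_upwards [hall] with v hv
    rw [Real.norm_eq_abs, abs_abs]
    exact hM ⟨v, fun i _ => mem_closedBall_zero_iff.2 (hv i), rfl⟩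
  rw [integral_pos_iff_support_of_nonneg (fun v => abs_nonneg _) hintd]
  exact hpos.trans_le (measure_mono fun v hv => by simpa using hsub hv)

end Vale.Agent.P227
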